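import Mathlib

namespace Vale.Agent.P295

open Finset

variable {R : Type*} [CommRing R] [Algebra ℂ R]

/-- Iterated Leibniz rule. -/
theorem leibniz_iterate (D : Derivation ℂ R R) (a b : R) (n : ℕ) :
    (⇑D)^[n] (a * b) =
      ∑ i ∈ range (n + 1), (n.choose i : R) * ((⇑D)^[i] a * (⇑D)^[n - i] b) := by
  induction n with
  | zero => simp
  | succ n ih =>
    rw [Finset.sum_choose_succ_mul (fun i j => (⇑D)^[i] a * (⇑D)^[j] b) n]
    rw [Function.iterate_succ_apply', ih, map_sum, ← Finset.sum_add_distrib]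
    refine Finset.sum_congr rfl fun i hi => ?_
    have hi' : i ≤ n := by simpa [Nat.lt_succ_iff] using hi
    rw [D.leibniz]
    simp only [smul_eq_mul, D.map_natCast, mul_zero, add_zero, D.leibniz,
      Function.iterate_succ_apply']
    rw [show n + 1 - i = (n - i) + 1 by omega, Function.iterate_succ_apply']
    ring

/-- `D` is locally nilpotent. -/
def LocNil (D : Derivation ℂ R R) : Prop := ∀ r : R, ∃ n : ℕ, (⇑D)^[n] r = 0

theorem iterate_zero' (D : Derivation ℂ R R) (n : ℕ) : (⇑D)^[n] (0 : R) = 0 :=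
  Function.iterate_fixed D.map_zero n

theorem iterate_add' (D : Derivation ℂ R R) (n : ℕ) (a b : R) :
    (⇑D)^[n] (a + b) = (⇑D)^[n] a + (⇑D)^[n] b := by
  induction n with
  | zero => rfl
  | succ n ih => simp [Function.iterate_succ_apply', ih]

theorem iterate_eq_zero_of_le (D : Derivation ℂ R R) {m n : ℕ} {r : R}
    (h : (⇑D)^[m] r = 0) (hmn : m ≤ n) : (⇑D)^[n] r = 0 := by
  obtain ⟨k, rfl⟩ := Nat.exists_eq_add_of_le hmn
  rw [add_comm, Function.iterate_add_apply, h, iterate_zero']

theorem nil_add (D : Derivation ℂ R R) {a b : R} (ha : ∃ n, (⇑D)^[n] a = 0)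
    (hb : ∃ n, (⇑D)^[n] b = 0) : ∃ n, (⇑D)^[n] (a + b) = 0 := by
  obtain ⟨m, hm⟩ := ha
  obtain ⟨n, hn⟩ := hb
  refine ⟨m + n, ?_⟩
  rw [iterate_add', iterate_eq_zero_of_le D hm (by omega), iterate_eq_zero_of_le D hn (by omega),
    add_zero]

theorem nil_mul (D : Derivation ℂ R R) {a b : R} (ha : ∃ n, (⇑D)^[n] a = 0)
    (hb : ∃ n, (⇑D)^[n] b = 0) : ∃ n, (⇑D)^[n] (a * b) = 0 := by
  obtain ⟨m, hm⟩ := ha
  obtain ⟨n, hn⟩ := hb
  refine ⟨m + n, ?_⟩
  rw [leibniz_iterate]
  refine Finset.sum_eq_zero fun i hi => ?_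
  by_cases h : m ≤ i
  · rw [iterate_eq_zero_of_le D hm h]; ring
  · rw [iterate_eq_zero_of_le D hn (show n ≤ m + n - i by omega)]; ring

/-- The depth of an element: the last iterate that does not vanish. -/
theorem exists_depth (D : Derivation ℂ R R) (hD : LocNil D) {r : R} (hr : r ≠ 0) :
    ∃ e : ℕ, (⇑D)^[e] r ≠ 0 ∧ (⇑D)^[e + 1] r = 0 := by
  classical
  have h := hD r
  obtain ⟨k, hk⟩ : ∃ k, Nat.find h = k + 1 := by
    refine Nat.exists_eq_succ_of_ne_zero fun h0 => hr ?_
    simpa [h0] using Nat.find_spec h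
  refine ⟨k, Nat.find_min h (by omega), ?_⟩
  rw [← hk]; exact Nat.find_spec h

/-- In a domain of characteristic zero, `a ∣ D a` forces `D a = 0`. -/
theorem map_eq_zero_of_dvd [IsDomain R] (D : Derivation ℂ R R) (hD : LocNil D)
    {a : R} (h : a ∣ D a) : D a = 0 := by
  have : CharZero R := charZero_of_injective_algebraMap (algebraMap ℂ R).injective
  by_contra hne
  obtain ⟨c, hc⟩ := h
  have ha : a ≠ 0 := by rintro rfl; simp at hne
  have hc0 : c ≠ 0 := by rintro rfl; simp at hc; exact hne hc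
  obtain ⟨p, hp, hp'⟩ := exists_depth D hD ha
  obtain ⟨q, hq, hq'⟩ := exists_depth D hD hc0
  have key : (⇑D)^[p + q] (a * c) =
      ((p + q).choose p : R) * ((⇑D)^[p] a * (⇑D)^[q] c) := by
    rw [leibniz_iterate, Finset.sum_eq_single p]
    · simp
    · intro i hi hip
      rcases lt_or_gt_of_ne hip with h | h
      · rw [iterate_eq_zero_of_le D hq' (show q + 1 ≤ p + q - i by omega)]; ring
      · rw [iterate_eq_zero_of_le D hp' (show p + 1 ≤ i by omega)]; ring
    · intro h; simp at h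
  have hne0 : (⇑D)^[p + q] (a * c) ≠ 0 := by
    rw [key]
    exact mul_ne_zero (Nat.cast_ne_zero.2 (Nat.choose_pos (by omega)).ne') (mul_ne_zero hp hq)
  apply hne0
  rw [← hc, ← Function.iterate_succ_apply]
  exact iterate_eq_zero_of_le D hp' (by omega)

/-- If a derivation is multiplied by an element of its kernel, iterates pick up powers. -/
theorem iterate_mul_const (D E : Derivation ℂ R R) (c : R) (hc : E c = 0)
    (h : ∀ r, D r = c * E r) (n : ℕ) (r : R) :
    (⇑D)^[n] r = c ^ n * (⇑E)^[n] r := by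
  induction n with
  | zero => simp
  | succ n ih =>
    rw [Function.iterate_succ_apply', ih, h, E.leibniz, E.leibniz_pow, hc]
    simp [Function.iterate_succ_apply', pow_succ]
    ring

/-- A derivation multiplied by a ring element. -/
noncomputable def scaleD (c : R) (D : Derivation ℂ R R) : Derivation ℂ R R := c • D

@[simp] theorem scaleD_apply (c : R) (D : Derivation ℂ R R) (r : R) :
    scaleD c D r = c * D r := rfl

end Vale.Agent.P295
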