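import Vale.Agent.P295.Data

/-!
The algebra `B` (a retract of a polynomial ring in seven variables) together with the
isomorphism between `B[V₁, V₂, H]` and the polynomial ring, fixing the base variable `x`.
-/

namespace Vale.Agent.P295

section point

variable {A : Type*} [CommRing A] [Algebra ℂ A] (p : Fin 7 → A)

def etaF : A := dA (p 1) (p 2) * p 3 + dB (p 1) (p 2) * p 4 + dK (p 1) (p 2) * p 5

def ccF : A := gG (p 1) (p 2) + p 0 * p 6 - etaF p

noncomputable def sA : A := p 3 + ccF p * mA (p 1) (p 2)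
noncomputable def sB : A := p 4 + ccF p * mB (p 1) (p 2)
noncomputable def sK : A := p 5 + ccF p * mK (p 1) (p 2)

noncomputable def zA : A := phiA (p 1) (p 2) + p 0 * sA p
noncomputable def zB : A := phiB (p 1) (p 2) + p 0 * sB p
noncomputable def zK : A := phiK (p 1) (p 2) + p 0 * sK p

noncomputable def wW : A := p 6 + omega2 (p 0) (p 1) (p 2) (sA p) (sB p) (sK p)
noncomputable def wF : A := gG (p 1) (p 2) + p 0 * wW p

theorem Phi_point : Phi (zA p) (zB p) (zK p) = p 0 * wF p := by
  have h := dual_m (p 1) (p 2)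
  rw [zA, zB, zK, Phi_expand]
  simp only [sA, sB, sK, wF, wW, ccF, etaF]
  linear_combination p 0 * (gG (p 1) (p 2) + p 0 * p 6 -
    (dA (p 1) (p 2) * p 3 + dB (p 1) (p 2) * p 4 + dK (p 1) (p 2) * p 5)) * h

variable {A' : Type*} [CommRing A'] [Algebra ℂ A'] (F : A →ₐ[ℂ] A')

@[simp] theorem map_etaF : F (etaF p) = etaF (F ∘ p) := by simp [etaF]
@[simp] theorem map_ccF : F (ccF p) = ccF (F ∘ p) := by simp [ccF]
@[simp] theorem map_sA : F (sA p) = sA (F ∘ p) := by simp [sA]
@[simp] theorem map_sB : F (sB p) = sB (F ∘ p) := by simp [sB]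
@[simp] theorem map_sK : F (sK p) = sK (F ∘ p) := by simp [sK]
@[simp] theorem map_zA : F (zA p) = zA (F ∘ p) := by simp [zA]
@[simp] theorem map_zB : F (zB p) = zB (F ∘ p) := by simp [zB]
@[simp] theorem map_zK : F (zK p) = zK (F ∘ p) := by simp [zK]
@[simp] theorem map_wW : F (wW p) = wW (F ∘ p) := by simp [wW]
@[simp] theorem map_wF : F (wF p) = wF (F ∘ p) := by simp [wF]

end point

section solve

variable {A : Type*} [CommRing A] [IsDomain A] [Algebra ℂ A]

theorem exists_point {x za zb zk w u t H : A} (hx : x ≠ 0) (hw : Phi za zb zk = x * w)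
    (ha : x ∣ za - phiA u t) (hb : x ∣ zb - phiB u t) (hk : x ∣ zk - phiK u t)
    (hg : x ∣ w - gG u t) :
    ∃ p : Fin 7 → A, p 0 = x ∧ p 1 = u ∧ p 2 = t ∧
      zA p = za ∧ zB p = zb ∧ zK p = zk ∧ etaF p = H := by
  obtain ⟨Za, hZa⟩ := ha
  obtain ⟨Zb, hZb⟩ := hb
  obtain ⟨Zk, hZk⟩ := hk
  obtain ⟨W, hW⟩ := hg
  set σ := W - omega2 x u t Za Zb Zk with hσ
  set c := gG u t + x * σ - H with hc
  have hN : dA u t * Za + dB u t * Zb + dK u t * Zk = gG u t + x * σ := by
    have e := hw
    rw [show za = phiA u t + x * Za by linear_combination hZa,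
      show zb = phiB u t + x * Zb by linear_combination hZb,
      show zk = phiK u t + x * Zk by linear_combination hZk, Phi_expand] at e
    have e' := mul_left_cancel₀ hx e
    rw [hσ]
    linear_combination e' + hW
  have hd := dual_m u t
  let p : Fin 7 → A := ![x, u, t, Za - c * mA u t, Zb - c * mB u t, Zk - c * mK u t, σ]
  have heta : etaF p = H := by
    change dA u t * (Za - c * mA u t) + dB u t * (Zb - c * mB u t) +
      dK u t * (Zk - c * mK u t) = H
    linear_combination hN - c * hd + hc * (-1 : A)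
  have hcc : ccF p = c := by rw [ccF, heta]; rfl
  refine ⟨p, rfl, rfl, rfl, ?_, ?_, ?_, heta⟩
  · rw [zA, sA, hcc]
    change phiA u t + x * (Za - c * mA u t + c * mA u t) = za
    linear_combination -hZa
  · rw [zB, sB, hcc]
    change phiB u t + x * (Zb - c * mB u t + c * mB u t) = zb
    linear_combination -hZb
  · rw [zK, sK, hcc]
    change phiK u t + x * (Zk - c * mK u t + c * mK u t) = zk
    linear_combination -hZk

theorem point_unique {p q : Fin 7 → A} (hx : p 0 ≠ 0) (h0 : p 0 = q 0) (h1 : p 1 = q 1)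
    (h2 : p 2 = q 2) (ha : zA p = zA q) (hb : zB p = zB q) (hk : zK p = zK q)
    (he : etaF p = etaF q) : p = q := by
  have hw : wF p = wF q := by
    apply mul_left_cancel₀ hx
    conv_rhs => rw [h0]
    rw [← Phi_point, ← Phi_point, ha, hb, hk]
  have sa : sA p = sA q := by
    rw [zA, zA, ← h0, ← h1, ← h2] at ha
    exact mul_left_cancel₀ hx (add_left_cancel ha)
  have sb : sB p = sB q := by
    rw [zB, zB, ← h0, ← h1, ← h2] at hb
    exact mul_left_cancel₀ hx (add_left_cancel hb)
  have sk : sK p = sK q := by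
    rw [zK, zK, ← h0, ← h1, ← h2] at hk
    exact mul_left_cancel₀ hx (add_left_cancel hk)
  have hW : wW p = wW q := by
    rw [wF, wF, ← h0, ← h1, ← h2] at hw
    exact mul_left_cancel₀ hx (add_left_cancel hw)
  have h6 : p 6 = q 6 := by
    simp only [wW, ← h0, ← h1, ← h2, sa, sb, sk] at hW
    exact add_right_cancel hW
  have hcc : ccF p = ccF q := by simp only [ccF, h0, h1, h2, h6, he]
  simp only [sA, sB, sK, hcc, h1, h2] at sa sb sk
  funext i
  fin_cases i <;> first
    | exact h0 | exact h1 | exact h2 | exact h6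
    | exact add_right_cancel sa | exact add_right_cancel sb | exact add_right_cancel sk

end solve

/-- The ambient polynomial ring. -/
abbrev R7 := MvPolynomial (Fin 7) ℂ

noncomputable def P7 : Fin 7 → R7 := MvPolynomial.X

noncomputable def su : R7 := invU (zA P7) (zB P7) (zK P7) (wF P7)
noncomputable def st : R7 := invT (zA P7) (zB P7) (zK P7) (wF P7)

theorem hom_ext7 {A : Type*} [CommRing A] [IsDomain A] [Algebra ℂ A] {F G : R7 →ₐ[ℂ] A}
    (hx : F (P7 0) ≠ 0) (h0 : F (P7 0) = G (P7 0)) (h1 : F (P7 1) = G (P7 1))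
    (h2 : F (P7 2) = G (P7 2)) (ha : F (zA P7) = G (zA P7)) (hb : F (zB P7) = G (zB P7))
    (hk : F (zK P7) = G (zK P7)) (he : F (etaF P7) = G (etaF P7)) : F = G := by
  simp only [map_zA, map_zB, map_zK, map_etaF] at ha hb hk he
  exact MvPolynomial.algHom_ext fun i => congrFun (point_unique hx h0 h1 h2 ha hb hk he) i

theorem exists_hom7 {A : Type*} [CommRing A] [IsDomain A] [Algebra ℂ A] {x za zb zk w u t H : A}
    (hx : x ≠ 0) (hw : Phi za zb zk = x * w)
    (ha : x ∣ za - phiA u t) (hb : x ∣ zb - phiB u t) (hk : x ∣ zk - phiK u t)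
    (hg : x ∣ w - gG u t) :
    ∃ F : R7 →ₐ[ℂ] A, F (P7 0) = x ∧ F (P7 1) = u ∧ F (P7 2) = t ∧
      F (zA P7) = za ∧ F (zB P7) = zb ∧ F (zK P7) = zk ∧ F (wF P7) = w ∧
      F (etaF P7) = H := by
  obtain ⟨p, h0, h1, h2, h3, h4, h5, h6⟩ := exists_point (H := H) hx hw ha hb hk hg
  have hp : (MvPolynomial.aeval p : R7 →ₐ[ℂ] A) ∘ P7 = p := by
    funext i; simp [P7]
  refine ⟨MvPolynomial.aeval p, ?_⟩
  simp only [map_zA, map_zB, map_zK, map_etaF, map_wF, hp]
  refine ⟨by rw [← h0]; simp [P7], by rw [← h1]; simp [P7], by rw [← h2]; simp [P7],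
    h3, h4, h5, ?_, h6⟩
  apply mul_left_cancel₀ hx
  conv_lhs => rw [← h0]
  rw [← Phi_point, h3, h4, h5, hw]

theorem P7_0_ne_zero : (P7 0 : R7) ≠ 0 := MvPolynomial.X_ne_zero 0

/-- Congruence modulo a single element. -/
theorem dvd_sub_of_quot {A : Type*} [CommRing A] [Algebra ℂ A] {x a b : A}
    (h : Ideal.Quotient.mkₐ ℂ (Ideal.span {x}) a = Ideal.Quotient.mkₐ ℂ (Ideal.span {x}) b) :
    x ∣ a - b := by
  rw [Ideal.Quotient.mkₐ_eq_mk, Ideal.Quotient.eq, Ideal.mem_span_singleton] at h
  exact h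

theorem quot_mk_self {A : Type*} [CommRing A] [Algebra ℂ A] (x : A) :
    Ideal.Quotient.mkₐ ℂ (Ideal.span {x}) x = 0 := by
  simp [Ideal.Quotient.eq_zero_iff_mem, Ideal.mem_span_singleton]

theorem su_congr : P7 0 ∣ P7 1 - su ∧ P7 0 ∣ P7 2 - st := by
  set q := Ideal.Quotient.mkₐ ℂ (Ideal.span {(P7 0 : R7)}) with hq
  have e0 : q (P7 0) = 0 := quot_mk_self _
  constructor <;> apply dvd_sub_of_quot
  · rw [su, map_invU]
    simp only [zA, zB, zK, wF, map_add, map_mul, map_phiA, map_phiB, map_phiK, map_gG, e0,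
      zero_mul, add_zero, ← hq]
    rw [invU_phi]
  · rw [st, map_invT]
    simp only [zA, zB, zK, wF, map_add, map_mul, map_phiA, map_phiB, map_phiK, map_gG, e0,
      zero_mul, add_zero, ← hq]
    rw [invT_phi]

theorem congr_phi : P7 0 ∣ zA P7 - phiA su st ∧ P7 0 ∣ zB P7 - phiB su st ∧
    P7 0 ∣ zK P7 - phiK su st ∧ P7 0 ∣ wF P7 - gG su st := by
  set q := Ideal.Quotient.mkₐ ℂ (Ideal.span {(P7 0 : R7)}) with hq
  have e0 : q (P7 0) = 0 := quot_mk_self _
  have h1 : q su = q (P7 1) := by
    obtain ⟨c, hc⟩ := su_congr.1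
    rw [show su = P7 1 - P7 0 * c by linear_combination -hc]
    simp [e0]
  have h2 : q st = q (P7 2) := by
    obtain ⟨c, hc⟩ := su_congr.2
    rw [show st = P7 2 - P7 0 * c by linear_combination -hc]
    simp [e0]
  refine ⟨?_, ?_, ?_, ?_⟩ <;> apply dvd_sub_of_quot <;>
    simp [zA, zB, zK, wF, ← hq, h1, h2, e0]

theorem exists_retraction : ∃ F : R7 →ₐ[ℂ] R7, F (P7 0) = P7 0 ∧ F (P7 1) = su ∧
    F (P7 2) = st ∧ F (zA P7) = zA P7 ∧ F (zB P7) = zB P7 ∧ F (zK P7) = zK P7 ∧
    F (wF P7) = wF P7 ∧ F (etaF P7) = 0 := by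
  obtain ⟨h1, h2, h3, h4⟩ := congr_phi
  exact exists_hom7 (H := 0) P7_0_ne_zero (Phi_point _) h1 h2 h3 h4

noncomputable def retr : R7 →ₐ[ℂ] R7 := exists_retraction.choose

theorem retr_x : retr (P7 0) = P7 0 := exists_retraction.choose_spec.1
theorem retr_u : retr (P7 1) = su := exists_retraction.choose_spec.2.1
theorem retr_t : retr (P7 2) = st := exists_retraction.choose_spec.2.2.1
theorem retr_zA : retr (zA P7) = zA P7 := exists_retraction.choose_spec.2.2.2.1
theorem retr_zB : retr (zB P7) = zB P7 := exists_retraction.choose_spec.2.2.2.2.1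
theorem retr_zK : retr (zK P7) = zK P7 := exists_retraction.choose_spec.2.2.2.2.2.1
theorem retr_w : retr (wF P7) = wF P7 := exists_retraction.choose_spec.2.2.2.2.2.2.1
theorem retr_eta : retr (etaF P7) = 0 := exists_retraction.choose_spec.2.2.2.2.2.2.2

theorem retr_su : retr su = su := by
  rw [su, map_invU, retr_zA, retr_zB, retr_zK, retr_w]

theorem retr_st : retr st = st := by
  rw [st, map_invT, retr_zA, retr_zB, retr_zK, retr_w]

theorem retr_idem : retr.comp retr = retr := by
  refine hom_ext7 ?_ ?_ ?_ ?_ ?_ ?_ ?_ ?_ <;>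
    simp only [AlgHom.comp_apply, retr_x, retr_u, retr_t, retr_zA, retr_zB, retr_zK, retr_eta,
      retr_su, retr_st, map_zero]
  exact P7_0_ne_zero

noncomputable def vU : R7 := su_congr.1.choose
noncomputable def vT : R7 := su_congr.2.choose

theorem vU_spec : P7 1 - su = P7 0 * vU := su_congr.1.choose_spec
theorem vT_spec : P7 2 - st = P7 0 * vT := su_congr.2.choose_spec

section generic

variable {B : Type} [CommRing B] [IsDomain B] [Algebra ℂ B] (i : B →ₐ[ℂ] R7) (tb : R7 →ₐ[ℂ] B)

noncomputable def cHom : B →ₐ[ℂ] MvPolynomial (Fin 3) B :=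
  IsScalarTower.toAlgHom ℂ B (MvPolynomial (Fin 3) B)

theorem cHom_apply (b : B) : cHom b = MvPolynomial.C b := rfl

/-- Asanuma's trick: the retract becomes polynomial after adjoining three variables. -/
theorem exists_equiv_of_retract (hit : ∀ r, i (tb r) = retr r) (hti : ∀ b, tb (i b) = b) :
    ∃ e : MvPolynomial (Fin 3) B ≃ₐ[ℂ] R7,
      e (MvPolynomial.C (tb (P7 0))) = MvPolynomial.X 0 := by
  have hinj : Function.Injective i := Function.LeftInverse.injective hti
  set x := cHom (tb (P7 0)) with hxdef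
  have hx : x ≠ 0 := by
    rw [hxdef, cHom_apply, Ne, MvPolynomial.C_eq_zero]
    intro h
    apply P7_0_ne_zero
    rw [← retr_x, ← hit, h, map_zero]
  set q := Ideal.Quotient.mkₐ ℂ (Ideal.span {x}) with hq
  have e0 : q x = 0 := quot_mk_self _
  have key : ∀ {a b : R7}, P7 0 ∣ a - b → q (cHom (tb a)) = q (cHom (tb b)) := by
    rintro a b ⟨c, hc⟩
    rw [show a = b + P7 0 * c by linear_combination hc]
    simp only [map_add, map_mul, ← hxdef, e0, zero_mul, add_zero]
  obtain ⟨h1, h2, h3, h4⟩ := congr_phi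
  obtain ⟨psi, p0, p1, p2, pa, pb, pk, pw, pe⟩ :=
    exists_hom7 (x := x) (za := cHom (tb (zA P7))) (zb := cHom (tb (zB P7)))
      (zk := cHom (tb (zK P7))) (w := cHom (tb (wF P7)))
      (u := cHom (tb su) + x * MvPolynomial.X 0) (t := cHom (tb st) + x * MvPolynomial.X 1)
      (H := MvPolynomial.X 2) hx
      (by
        rw [hxdef, ← map_Phi cHom, ← map_Phi tb, Phi_point, map_mul, map_mul])
      (by
        apply dvd_sub_of_quot
        rw [← hq, map_phiA, map_add, map_add, map_mul, map_mul, e0, zero_mul, add_zero,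
          zero_mul, add_zero, key h1, map_phiA, map_phiA, map_phiA])
      (by
        apply dvd_sub_of_quot
        rw [← hq, map_phiB, map_add, map_add, map_mul, map_mul, e0, zero_mul, add_zero,
          zero_mul, add_zero, key h2, map_phiB, map_phiB, map_phiB])
      (by
        apply dvd_sub_of_quot
        rw [← hq, map_phiK, map_add, map_add, map_mul, map_mul, e0, zero_mul, add_zero,
          zero_mul, add_zero, key h3, map_phiK, map_phiK, map_phiK])
      (by
        apply dvd_sub_of_quot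
        rw [← hq, map_gG, map_add, map_add, map_mul, map_mul, e0, zero_mul, add_zero,
          zero_mul, add_zero, key h4, map_gG, map_gG, map_gG])
  have hsu : psi su = cHom (tb su) := by
    rw [su, map_invU, map_invU, map_invU, pa, pb, pk, pw]
  have hst : psi st = cHom (tb st) := by
    rw [st, map_invT, map_invT, map_invT, pa, pb, pk, pw]
  have htr : ∀ r, tb (retr r) = tb r := fun r => by rw [← hit, hti]
  have hcb : psi.comp retr = cHom.comp tb := by
    have e1 : tb (P7 1) = tb su := by rw [← htr (P7 1), retr_u]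
    have e2 : tb (P7 2) = tb st := by rw [← htr (P7 2), retr_t]
    have e3 : tb (etaF P7) = 0 := by rw [← htr, retr_eta, map_zero]
    refine hom_ext7 (A := MvPolynomial (Fin 3) B) (F := psi.comp retr) (G := cHom.comp tb)
      ?_ ?_ ?_ ?_ ?_ ?_ ?_ ?_ <;>
      simp only [AlgHom.comp_apply, retr_x, retr_u, retr_t, retr_zA, retr_zB, retr_zK, retr_eta,
        p0, pa, pb, pk, hsu, hst, e1, e2, e3, map_zero, ← hxdef]
    exact hx
  have hb : ∀ b : B, psi (i b) = cHom b := fun b => by
    have h := AlgHom.congr_fun hcb (i b)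
    rw [AlgHom.comp_apply, AlgHom.comp_apply, hti] at h
    rwa [← hit, hti] at h
  have hvU : psi vU = MvPolynomial.X 0 := by
    have h := congrArg psi vU_spec
    rw [map_sub, map_mul, p1, hsu, p0] at h
    exact mul_left_cancel₀ hx (by linear_combination -h)
  have hvT : psi vT = MvPolynomial.X 1 := by
    have h := congrArg psi vT_spec
    rw [map_sub, map_mul, p2, hst, p0] at h
    exact mul_left_cancel₀ hx (by linear_combination -h)
  let theta : MvPolynomial (Fin 3) B →ₐ[ℂ] R7 :=
    { (MvPolynomial.eval₂Hom i.toRingHom ![vU, vT, etaF P7]) with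
      commutes' := fun c => by
        simp [IsScalarTower.algebraMap_apply ℂ B (MvPolynomial (Fin 3) B)] }
  have tC : ∀ b, theta (cHom b) = i b := fun b => by simp [theta, cHom_apply]
  have tX : ∀ j, theta (MvPolynomial.X j) = ![vU, vT, etaF P7] j := fun j => by simp [theta]
  have hleft : ∀ r, theta (psi r) = r := by
    have : theta.comp psi = AlgHom.id ℂ R7 := by
      refine hom_ext7 (A := R7) (F := theta.comp psi) (G := AlgHom.id ℂ R7)
        ?_ ?_ ?_ ?_ ?_ ?_ ?_ ?_ <;>
        simp only [AlgHom.comp_apply, AlgHom.id_apply, p0, p1, p2, pa, pb, pk, pe, map_add,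
          map_mul, hxdef, tC, tX, hit, retr_x, retr_su, retr_st, retr_zA, retr_zB, retr_zK]
      · exact P7_0_ne_zero
      · simp only [Matrix.cons_val_zero]; linear_combination -vU_spec
      · simp only [Matrix.cons_val_one, Matrix.cons_val_zero]; linear_combination -vT_spec
      · simp
    exact fun r => AlgHom.congr_fun this r
  have hright : ∀ p, psi (theta p) = p := by
    intro p
    induction p using MvPolynomial.induction_on with
    | C b => rw [← cHom_apply, tC, hb]
    | add a b ha hb' => rw [map_add, map_add, ha, hb']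
    | mul_X a j ha =>
      rw [map_mul, map_mul, ha, tX]
      fin_cases j <;> simp [hvU, hvT, pe]
  refine ⟨AlgEquiv.ofAlgHom theta psi (AlgHom.ext hleft) (AlgHom.ext hright), ?_⟩
  change theta (cHom (tb (P7 0))) = _
  rw [tC, hit, retr_x]; rfl

end generic

/-- The algebra `B`, the image of the retraction. -/
noncomputable def BAlg : Subalgebra ℂ R7 := retr.range

theorem retr_coe (b : BAlg) : retr (b : R7) = b := by
  obtain ⟨r, hr⟩ := (b.2 : (b : R7) ∈ retr.range)
  have hr' : retr r = (b : R7) := hr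
  rw [← hr', ← AlgHom.comp_apply, retr_idem]

noncomputable def toB : R7 →ₐ[ℂ] BAlg := retr.codRestrict BAlg fun r => ⟨r, rfl⟩

@[simp] theorem coe_toB (r : R7) : (toB r : R7) = retr r := rfl

theorem toB_coe (b : BAlg) : toB (b : R7) = b := Subtype.ext (retr_coe b)

noncomputable def xB : BAlg := toB (P7 0)

theorem coe_xB : (xB : R7) = P7 0 := retr_x

theorem xB_ne_zero : xB ≠ 0 := fun h => P7_0_ne_zero (by rw [← coe_xB, h]; rfl)

theorem exists_equiv : ∃ e : MvPolynomial (Fin 3) BAlg ≃ₐ[ℂ] R7,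
    e (MvPolynomial.C xB) = MvPolynomial.X 0 :=
  exists_equiv_of_retract BAlg.val toB (fun _ => rfl) toB_coe

end Vale.Agent.P295
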