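import Vale.Agent.P295.Rigid
import Vale.Agent.P295.Asanuma

/-!
`B` is not a polynomial ring over `ℂ[x]`.
-/

namespace Vale.Agent.P295

/-- Polynomials in `x` and the three ambient variables. -/
abbrev Z4 := MvPolynomial (Fin 4) ℂ

noncomputable def iota4 : Z4 →ₐ[ℂ] R7 :=
  MvPolynomial.aeval ![P7 0, zA P7, zB P7, zK P7]

noncomputable def e4 : Z4 →ₐ[ℂ] Z3 :=
  MvPolynomial.aeval ![0, MvPolynomial.X 0, MvPolynomial.X 1, MvPolynomial.X 2]

noncomputable def sec4 : Z3 →ₐ[ℂ] Z4 :=
  MvPolynomial.aeval ![MvPolynomial.X 1, MvPolynomial.X 2, MvPolynomial.X 3]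

theorem e4_sec4 (p : Z3) : e4 (sec4 p) = p := by
  have : e4.comp sec4 = AlgHom.id ℂ Z3 :=
    MvPolynomial.algHom_ext fun i => by fin_cases i <;> simp [e4, sec4]
  exact AlgHom.congr_fun this p

theorem X0_dvd_sub (p : Z4) : MvPolynomial.X 0 ∣ p - sec4 (e4 p) := by
  induction p using MvPolynomial.induction_on with
  | C c => simp [e4, sec4]
  | add a b ha hb =>
    have := dvd_add ha hb
    convert this using 1
    simp only [map_add]; ring
  | mul_X a i ha =>
    fin_cases i
    · exact ⟨a, by simp [e4, mul_comm]⟩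
    all_goals
      convert Dvd.dvd.mul_right ha _ using 1
      simp [e4, sec4, sub_mul]
      rfl

theorem iota4_sec4_PhiP : iota4 (sec4 PhiP) = P7 0 * wF P7 := by
  rw [PhiP, map_Phi, map_Phi, ← Phi_point]
  simp [iota4, sec4]

/-- Evaluation at a point of the plane in the special fibre. -/
noncomputable def eps : R7 →ₐ[ℂ] CU := MvPolynomial.aeval ![0, u0, t0, 0, 0, 0, 0]

theorem eps_x : eps (P7 0) = 0 := by simp [eps, P7]

theorem eps_iota4 (p : Z4) : eps (iota4 p) = phiHom (e4 p) := by
  have : eps.comp iota4 = phiHom.comp e4 :=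
    MvPolynomial.algHom_ext fun i => by
      fin_cases i <;> simp [iota4, e4, eps, P7, zA, zB, zK]
  exact AlgHom.congr_fun this p

theorem iota4_injective : Function.Injective iota4 := by
  let K := FractionRing Z4
  let f : Z4 →ₐ[ℂ] K := IsScalarTower.toAlgHom ℂ Z4 K
  have hf : Function.Injective f := IsFractionRing.injective Z4 K
  have hx : f (MvPolynomial.X 0) ≠ 0 := fun h =>
    MvPolynomial.X_ne_zero (R := ℂ) (0 : Fin 4) (hf (h.trans (map_zero f).symm))
  have hdiv : ∀ r : K, f (MvPolynomial.X 0) ∣ r := fun r =>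
    ⟨r / f (MvPolynomial.X 0), (mul_div_cancel₀ r hx).symm⟩
  obtain ⟨F, h0, -, -, ha, hb, hk, -, -⟩ := exists_hom7 (A := K) (x := f (MvPolynomial.X 0))
    (za := f (MvPolynomial.X 1)) (zb := f (MvPolynomial.X 2)) (zk := f (MvPolynomial.X 3))
    (w := Phi (f (MvPolynomial.X 1)) (f (MvPolynomial.X 2)) (f (MvPolynomial.X 3)) /
      f (MvPolynomial.X 0))
    (u := 0) (t := 0) (H := 0) hx (mul_div_cancel₀ _ hx).symm (hdiv _) (hdiv _) (hdiv _) (hdiv _)
  have : F.comp iota4 = f := MvPolynomial.algHom_ext fun i => by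
    fin_cases i
    · simpa [iota4] using h0
    · simpa [iota4] using ha
    · simpa [iota4] using hb
    · simpa [iota4] using hk
  intro p q h
  apply hf
  rw [← this, AlgHom.comp_apply, AlgHom.comp_apply, h]

/-- Elements that become polynomial in `x, z` after multiplication by a power of `x`. -/
def Clear (r : R7) : Prop := ∃ n : ℕ, ∃ p : Z4, P7 0 ^ n * r = iota4 p

theorem Clear.iota (p : Z4) : Clear (iota4 p) := ⟨0, p, by simp⟩

theorem Clear.add {r s : R7} (hr : Clear r) (hs : Clear s) : Clear (r + s) := by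
  obtain ⟨m, p, hp⟩ := hr
  obtain ⟨n, q, hq⟩ := hs
  refine ⟨m + n, MvPolynomial.X 0 ^ n * p + MvPolynomial.X 0 ^ m * q, ?_⟩
  have h0 : iota4 (MvPolynomial.X 0) = P7 0 := by simp [iota4]
  simp only [map_add, map_mul, map_pow, h0, ← hp, ← hq]; ring

theorem Clear.mul {r s : R7} (hr : Clear r) (hs : Clear s) : Clear (r * s) := by
  obtain ⟨m, p, hp⟩ := hr
  obtain ⟨n, q, hq⟩ := hs
  exact ⟨m + n, p * q, by rw [map_mul, ← hp, ← hq]; ring⟩

theorem Clear.const (c : ℂ) : Clear (algebraMap ℂ R7 c) := by
  have := Clear.iota (MvPolynomial.C c)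
  rwa [← MvPolynomial.algebraMap_eq, AlgHom.commutes] at this

theorem Clear.of_mul {r : R7} (hr : Clear (P7 0 * r)) : Clear r := by
  obtain ⟨n, p, hp⟩ := hr
  exact ⟨n + 1, p, by rw [← hp]; ring⟩

/-- The subalgebra of clearable elements. -/
noncomputable def clearAlg : Subalgebra ℂ R7 where
  carrier := {r | Clear r}
  mul_mem' := Clear.mul
  add_mem' := Clear.add
  algebraMap_mem' := Clear.const

theorem clear_retr (r : R7) : Clear (retr r) := by
  have hx : P7 0 ∈ clearAlg := by
    change Clear _
    simpa [iota4] using Clear.iota (MvPolynomial.X 0)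
  have ha : zA P7 ∈ clearAlg := by
    change Clear _
    simpa [iota4] using Clear.iota (MvPolynomial.X 1)
  have hb : zB P7 ∈ clearAlg := by
    change Clear _
    simpa [iota4] using Clear.iota (MvPolynomial.X 2)
  have hk : zK P7 ∈ clearAlg := by
    change Clear _
    simpa [iota4] using Clear.iota (MvPolynomial.X 3)
  have cancel : ∀ {r : R7}, P7 0 * r ∈ clearAlg → r ∈ clearAlg := fun h => Clear.of_mul h
  have hw : wF P7 ∈ clearAlg := by
    apply cancel
    rw [← iota4_sec4_PhiP]; exact Clear.iota _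
  -- the image of the generators
  set q : Fin 7 → R7 := retr ∘ P7 with hq
  have q0 : q 0 = P7 0 := retr_x
  have hc : ∀ c : ℂ, algebraMap ℂ R7 c ∈ clearAlg := fun c => clearAlg.algebraMap_mem c
  let A0 := clearAlg
  let xC : A0 := ⟨P7 0, hx⟩
  have hval : ∀ (a : A0), A0.val a = (a : R7) := fun _ => rfl
  have hsu : su ∈ clearAlg := by
    have : A0.val (invU ⟨zA P7, ha⟩ ⟨zB P7, hb⟩ ⟨zK P7, hk⟩ ⟨wF P7, hw⟩) = su := by
      rw [map_invU]; rfl
    rw [← this]; exact SetLike.coe_mem _
  have hst : st ∈ clearAlg := by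
    have : A0.val (invT ⟨zA P7, ha⟩ ⟨zB P7, hb⟩ ⟨zK P7, hk⟩ ⟨wF P7, hw⟩) = st := by
      rw [map_invT]; rfl
    rw [← this]; exact SetLike.coe_mem _
  let U : A0 := ⟨su, hsu⟩
  let T : A0 := ⟨st, hst⟩
  have q1 : q 1 = A0.val U := retr_u
  have q2 : q 2 = A0.val T := retr_t
  have za : zA q = zA P7 := by rw [hq, ← map_zA]; exact retr_zA
  have zb : zB q = zB P7 := by rw [hq, ← map_zB]; exact retr_zB
  have zk : zK q = zK P7 := by rw [hq, ← map_zK]; exact retr_zK
  have zw : wF q = wF P7 := by rw [hq, ← map_wF]; exact retr_w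
  have ze : etaF q = 0 := by rw [hq, ← map_etaF]; exact retr_eta
  have sa : sA q ∈ clearAlg := by
    apply cancel
    rw [show P7 0 * sA q = zA P7 - A0.val (phiA U T) by
      rw [map_phiA, ← q1, ← q2, ← za, zA, q0]; ring]
    exact sub_mem ha (SetLike.coe_mem _)
  have sb : sB q ∈ clearAlg := by
    apply cancel
    rw [show P7 0 * sB q = zB P7 - A0.val (phiB U T) by
      rw [map_phiB, ← q1, ← q2, ← zb, zB, q0]; ring]
    exact sub_mem hb (SetLike.coe_mem _)
  have sk : sK q ∈ clearAlg := by
    apply cancel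
    rw [show P7 0 * sK q = zK P7 - A0.val (phiK U T) by
      rw [map_phiK, ← q1, ← q2, ← zk, zK, q0]; ring]
    exact sub_mem hk (SetLike.coe_mem _)
  have hW : wW q ∈ clearAlg := by
    apply cancel
    rw [show P7 0 * wW q = wF P7 - A0.val (gG U T) by
      rw [map_gG, ← q1, ← q2, ← zw, wF, q0]; ring]
    exact sub_mem hw (SetLike.coe_mem _)
  have h6 : q 6 ∈ clearAlg := by
    rw [show q 6 = wW q - A0.val (omega2 xC U T ⟨sA q, sa⟩ ⟨sB q, sb⟩ ⟨sK q, sk⟩) by
      rw [map_omega2, ← q1, ← q2, show A0.val xC = q 0 from q0.symm, wW]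
      simp only [hval]; ring]
    exact sub_mem hW (SetLike.coe_mem _)
  let cc : A0 := gG U T + xC * ⟨q 6, h6⟩
  have hcc : ccF q = A0.val cc := by
    simp only [cc, map_add, map_mul, map_gG, ← q1, ← q2]
    rw [ccF, ze, sub_zero, q0]; rfl
  have h3 : q 3 ∈ clearAlg := by
    rw [show q 3 = sA q - A0.val (cc * mA U T) by
      rw [map_mul, map_mA, ← q1, ← q2, ← hcc, sA]; ring]
    exact sub_mem sa (SetLike.coe_mem (cc * mA U T))
  have h4 : q 4 ∈ clearAlg := by
    rw [show q 4 = sB q - A0.val (cc * mB U T) by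
      rw [map_mul, map_mB, ← q1, ← q2, ← hcc, sB]; ring]
    exact sub_mem sb (SetLike.coe_mem (cc * mB U T))
  have h5 : q 5 ∈ clearAlg := by
    rw [show q 5 = sK q - A0.val (cc * mK U T) by
      rw [map_mul, map_mK, ← q1, ← q2, ← hcc, sK]; ring]
    exact sub_mem sk (SetLike.coe_mem (cc * mK U T))
  change retr r ∈ clearAlg
  induction r using MvPolynomial.induction_on with
  | C c => rw [← MvPolynomial.algebraMap_eq, AlgHom.commutes]; exact hc c
  | add a b ha' hb' => rw [map_add]; exact add_mem ha' hb'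
  | mul_X a i ha' =>
    rw [map_mul]
    refine mul_mem ha' ?_
    change q i ∈ clearAlg
    fin_cases i
    exacts [q0 ▸ hx, q1 ▸ hsu, q2 ▸ hst, h3, h4, h5, h6]

noncomputable def iotaB : Z4 →ₐ[ℂ] BAlg := toB.comp iota4

theorem coe_iotaB (p : Z4) : (iotaB p : R7) = iota4 p := by
  have : retr.comp iota4 = iota4 := MvPolynomial.algHom_ext fun i => by
    fin_cases i
    · simpa [iota4] using retr_x
    · simpa [iota4, -map_zA] using retr_zA
    · simpa [iota4, -map_zB] using retr_zB
    · simpa [iota4, -map_zK] using retr_zK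
  exact AlgHom.congr_fun this p

theorem iotaB_injective : Function.Injective iotaB := fun p q h =>
  iota4_injective (by rw [← coe_iotaB, ← coe_iotaB, h])

theorem iotaB_X0 : iotaB (MvPolynomial.X 0) = xB := by simp [iotaB, xB, iota4]

theorem exists_clear_B (b : BAlg) : ∃ n : ℕ, ∃ p : Z4, xB ^ n * b = iotaB p := by
  obtain ⟨n, p, hp⟩ := clear_retr (b : R7)
  rw [retr_coe] at hp
  refine ⟨n, p, Subtype.ext ?_⟩
  rw [coe_iotaB, ← hp]
  simp [coe_xB]

/-- A derivation of the polynomial ring that vanishes modulo the surface is zero. -/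
theorem eq_zero_of_dvd (E : Derivation ℂ Z3 Z3) (hnil : LocNil E)
    (h : ∀ j, PhiP ∣ E (MvPolynomial.X j)) (j : Fin 3) : E (MvPolynomial.X j) = 0 := by
  have hne : PhiP ≠ 0 := by
    intro h0
    have := congrArg (MvPolynomial.eval (0 : Fin 3 → ℂ)) h0
    simp [PhiP, Phi, fF, map_ofNat] at this
  have key : ∀ n : ℕ, ∀ E : Derivation ℂ Z3 Z3, LocNil E →
      (∀ j, PhiP ∣ E (MvPolynomial.X j)) → ∀ j, PhiP ^ n ∣ E (MvPolynomial.X j) := by
    intro n
    induction n with
    | zero => intro E _ _ j; simp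
    | succ n ih =>
      intro E hnil h j
      choose c hc using h
      let E' : Derivation ℂ Z3 Z3 := MvPolynomial.mkDerivation ℂ c
      have hEE : E = PhiP • E' := MvPolynomial.derivation_ext fun i => by
        simp [E', hc i]
      have hEr : ∀ r, E r = PhiP * E' r := fun r => by rw [hEE]; rfl
      have hEP : E PhiP = 0 := map_eq_zero_of_dvd E hnil ⟨E' PhiP, hEr PhiP⟩
      have hE'P : E' PhiP = 0 := by
        have := hEr PhiP
        rw [hEP] at this
        exact (mul_eq_zero.1 this.symm).resolve_left hne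
      have hnil' : LocNil E' := fun r => by
        obtain ⟨m, hm⟩ := hnil r
        rw [iterate_mul_const E E' PhiP hE'P hEr] at hm
        exact ⟨m, (mul_eq_zero.1 hm).resolve_left (pow_ne_zero _ hne)⟩
      have hdvd : ∀ i, PhiP ∣ E' (MvPolynomial.X i) :=
        rigid E' hnil' (by rw [hE'P]; exact dvd_zero _)
      rw [hEr, pow_succ']
      exact mul_dvd_mul_left _ (ih E' hnil' hdvd j)
  by_contra hj
  have hu : ¬ IsUnit PhiP := fun hu => by
    have := hu.map phiHom
    rw [phiHom_PhiP] at this
    exact not_isUnit_zero this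
  obtain ⟨n, hn⟩ := FiniteMultiplicity.of_not_isUnit hu hj
  exact hn (key (n + 1) E hnil h j)

/-- The element `z_j` of `B`. -/
noncomputable def zGen (j : Fin 3) : BAlg := iotaB (sec4 (MvPolynomial.X j))

/-- Every locally nilpotent `ℂ[x]`-derivation of `B` maps `z_j` into `x B`. -/
theorem deriv_mem (D : Derivation ℂ BAlg BAlg) (hD : LocNil D) (hx : D xB = 0) (j : Fin 3) :
    xB ∣ D (zGen j) := by
  classical
  have hex : ∃ d : ℕ, ∀ j, ∃ p : Z4, xB ^ d * D (zGen j) = iotaB p := by
    choose n p hp using fun j => exists_clear_B (D (zGen j))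
    refine ⟨Finset.univ.sup n, fun j => ⟨MvPolynomial.X 0 ^ (Finset.univ.sup n - n j) * p j, ?_⟩⟩
    have hle : n j ≤ Finset.univ.sup n := Finset.le_sup (Finset.mem_univ j)
    rw [map_mul, map_pow, iotaB_X0, ← hp j, ← mul_assoc, ← pow_add, Nat.sub_add_cancel hle]
  choose p hp using Nat.find_spec hex
  set d := Nat.find hex with hd
  let DP : Derivation ℂ Z4 Z4 := MvPolynomial.mkDerivation ℂ (Fin.cases 0 p)
  let E : Derivation ℂ Z3 Z3 := MvPolynomial.mkDerivation ℂ (fun i => e4 (p i))
  let D' : Derivation ℂ BAlg BAlg := scaleD (xB ^ d) D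
  have hD' : ∀ r, D' r = xB ^ d * D r := fun r => rfl
  have hz : ∀ i : Fin 3, iotaB (MvPolynomial.X i.succ) = zGen i := fun i => by
    fin_cases i <;> simp [zGen, sec4]
  have hcomm : ∀ q, iotaB (DP q) = D' (iotaB q) := by
    intro q
    induction q using MvPolynomial.induction_on with
    | C c =>
      rw [← MvPolynomial.algebraMap_eq, DP.map_algebraMap, map_zero, AlgHom.commutes,
        D'.map_algebraMap]
    | add a b ha hb => simp only [map_add, ha, hb]
    | mul_X a i ha =>
      have hX : iotaB (DP (MvPolynomial.X i)) = D' (iotaB (MvPolynomial.X i)) := by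
        rw [MvPolynomial.mkDerivation_X]
        induction i using Fin.cases with
        | zero => simp [hD', iotaB_X0, hx]
        | succ i => rw [Fin.cases_succ, hz, hD', hp]
      simp only [Derivation.leibniz, map_add, smul_eq_mul, map_mul, ha, hX]
  have hnilP : LocNil DP := fun q => by
    obtain ⟨n, hn⟩ := hD (iotaB q)
    refine ⟨n, iotaB_injective ?_⟩
    have hit : ∀ n, iotaB ((⇑DP)^[n] q) = (⇑D')^[n] (iotaB q) := by
      intro n
      induction n with
      | zero => rfl
      | succ n ih => rw [Function.iterate_succ_apply', Function.iterate_succ_apply', hcomm, ih]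
    rw [hit, map_zero, iterate_mul_const D' D (xB ^ d) (by simp [D.leibniz_pow, hx]) hD', hn,
      mul_zero]
  have hEcomm : ∀ q, e4 (DP q) = E (e4 q) := by
    intro q
    induction q using MvPolynomial.induction_on with
    | C c =>
      rw [← MvPolynomial.algebraMap_eq, DP.map_algebraMap, map_zero, AlgHom.commutes,
        E.map_algebraMap]
    | add a b ha hb => simp only [map_add, ha, hb]
    | mul_X a i ha =>
      have hX : e4 (DP (MvPolynomial.X i)) = E (e4 (MvPolynomial.X i)) := by
        rw [MvPolynomial.mkDerivation_X]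
        induction i using Fin.cases with
        | zero => simp [e4]
        | succ i =>
          rw [Fin.cases_succ]
          have : e4 (MvPolynomial.X i.succ) = MvPolynomial.X i := by
            fin_cases i <;> simp [e4]
          rw [this, MvPolynomial.mkDerivation_X]
      simp only [Derivation.leibniz, map_add, smul_eq_mul, map_mul, ha, hX]
  have hnilE : LocNil E := fun r => by
    obtain ⟨n, hn⟩ := hnilP (sec4 r)
    refine ⟨n, ?_⟩
    have hit : ∀ n, e4 ((⇑DP)^[n] (sec4 r)) = (⇑E)^[n] r := by
      intro n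
      induction n with
      | zero => exact e4_sec4 r
      | succ n ih => rw [Function.iterate_succ_apply', Function.iterate_succ_apply', hEcomm, ih]
    rw [← hit, hn, map_zero]
  have hpres : PhiP ∣ E PhiP := by
    rw [← phiHom_eq_zero_iff]
    conv_lhs => arg 2; rw [← e4_sec4 PhiP, ← hEcomm]
    rw [← eps_iota4, ← coe_iotaB, hcomm, hD']
    have : iotaB (sec4 PhiP) = xB * toB (wF P7) := by
      rw [iotaB, AlgHom.comp_apply, iota4_sec4_PhiP, map_mul]; rfl
    rw [this, D.leibniz, hx, smul_zero, add_zero, smul_eq_mul]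
    push_cast
    simp [coe_xB, eps_x]
  have hdvd : ∀ i, PhiP ∣ E (MvPolynomial.X i) := rigid E hnilE hpres
  have hp' : ∀ i, ∃ a, iotaB (p i) = xB * a := by
    intro i
    obtain ⟨a, ha⟩ := X0_dvd_sub (p i)
    obtain ⟨c, hc⟩ := hdvd i
    rw [MvPolynomial.mkDerivation_X] at hc
    have h1 : iotaB (sec4 PhiP) = xB * toB (wF P7) := by
      rw [iotaB, AlgHom.comp_apply, iota4_sec4_PhiP, map_mul]; rfl
    refine ⟨toB (wF P7) * iotaB (sec4 c) + iotaB a, ?_⟩
    rw [show p i = sec4 (e4 (p i)) + MvPolynomial.X 0 * a by linear_combination ha]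
    rw [hc, map_add, map_mul, map_mul, map_mul, h1, iotaB_X0]; ring
  rcases Nat.eq_zero_or_pos d with h0 | hpos
  · obtain ⟨a, ha⟩ := hp' j
    refine ⟨a, ?_⟩
    have := hp j
    rw [h0, pow_zero, one_mul] at this
    rw [this, ha]
  · exfalso
    apply Nat.find_min hex (show d - 1 < d by omega)
    intro i
    obtain ⟨a, ha⟩ := X0_dvd_sub (p i)
    have he : e4 (p i) = 0 := by
      have := eq_zero_of_dvd E hnilE hdvd i
      rwa [MvPolynomial.mkDerivation_X] at this
    rw [he, map_zero, sub_zero] at ha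
    refine ⟨a, ?_⟩
    have h := hp i
    rw [ha, map_mul, iotaB_X0] at h
    apply mul_left_cancel₀ xB_ne_zero
    rw [← h, ← mul_assoc, ← pow_succ', Nat.sub_add_cancel hpos]

theorem locNil_pderiv {σ : Type*} (j : σ) :
    LocNil (MvPolynomial.pderiv j : Derivation ℂ (MvPolynomial σ ℂ) (MvPolynomial σ ℂ)) := by
  classical
  intro r
  induction r using MvPolynomial.induction_on with
  | C c => exact ⟨1, by simp⟩
  | add a b ha hb => exact nil_add _ ha hb
  | mul_X a i ha =>
    refine nil_mul _ ha ⟨2, ?_⟩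
    rcases eq_or_ne i j with rfl | h
    · simp [Function.iterate_succ]
    · simp [Function.iterate_succ, MvPolynomial.pderiv_X_of_ne h]

theorem eq_C_of_pderiv_eq_zero {σ : Type*} (p : MvPolynomial σ ℂ)
    (h : ∀ j, MvPolynomial.pderiv j p = 0) : p = MvPolynomial.C (MvPolynomial.coeff 0 p) := by
  classical
  ext d
  rw [MvPolynomial.coeff_C]
  split_ifs with hd
  · rw [← hd]
  · obtain ⟨j, hj⟩ := Finsupp.support_nonempty_iff.2 (Ne.symm hd)
    rw [Finsupp.mem_support_iff] at hj
    have hd' : d - Finsupp.single j 1 + Finsupp.single j 1 = d :=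
      tsub_add_cancel_of_le (Finsupp.single_le_iff.2 (Nat.one_le_iff_ne_zero.2 hj))
    have := congrArg (MvPolynomial.coeff (d - Finsupp.single j 1)) (h j)
    rw [MvPolynomial.coeff_pderiv, hd', MvPolynomial.coeff_zero, mul_eq_zero] at this
    rcases this with h' | h'
    · exact h'
    · exfalso
      exact Nat.cast_add_one_ne_zero _ h'

/-- There is no isomorphism of `B` with a polynomial ring carrying `x` to a variable. -/
theorem no_coordinate_iso :
    ¬ ∃ (e : BAlg ≃ₐ[ℂ] MvPolynomial (Fin 4) ℂ) (i : Fin 4), e xB = MvPolynomial.X i := by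
  rintro ⟨e, i, hi⟩
  classical
  let kill : MvPolynomial (Fin 4) ℂ →ₐ[ℂ] MvPolynomial (Fin 4) ℂ :=
    MvPolynomial.aeval fun k => if k = i then 0 else MvPolynomial.X k
  have hcong : ∀ q, MvPolynomial.X i ∣ q - kill q := by
    intro q
    induction q using MvPolynomial.induction_on with
    | C c => simp [kill]
    | add a b ha hb =>
      have := dvd_add ha hb
      convert this using 1
      simp only [map_add]; ring
    | mul_X a k ha =>
      by_cases hk : k = i
      · subst hk; exact ⟨a, by simp [kill, mul_comm]⟩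
      · convert Dvd.dvd.mul_right ha (MvPolynomial.X k) using 1
        simp [kill, hk, sub_mul]
  have hkill : ∀ (k : Fin 4) (q : MvPolynomial (Fin 4) ℂ), MvPolynomial.pderiv k (kill q) =
      if k = i then 0 else kill (MvPolynomial.pderiv k q) := by
    intro k q
    induction q using MvPolynomial.induction_on with
    | C c => simp [kill]
    | add a b ha hb => rw [map_add, map_add, ha, hb]; split <;> simp
    | mul_X a l ha =>
      have hX : MvPolynomial.pderiv k (kill (MvPolynomial.X l)) =
          if k = i then 0 else kill (MvPolynomial.pderiv k (MvPolynomial.X l)) := by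
        by_cases hl : l = i
        · subst hl
          by_cases hk : k = l
          · simp [kill, hk]
          · simp [kill, hk, MvPolynomial.pderiv_X_of_ne (Ne.symm hk)]
        · by_cases hk : k = i
          · subst hk
            simp [kill, hl, MvPolynomial.pderiv_X_of_ne hl]
          · rcases eq_or_ne l k with rfl | hlk
            · simp [kill, hl]
            · simp [kill, hl, hk, MvPolynomial.pderiv_X_of_ne hlk]
      simp only [map_mul, Derivation.leibniz, smul_eq_mul, map_add, ha, hX]
      split <;> simp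
  have hq : ∀ l : Fin 3, ∃ c : ℂ, MvPolynomial.X i ∣ e (zGen l) - MvPolynomial.C c := by
    intro l
    have h0 : ∀ k, MvPolynomial.pderiv k (kill (e (zGen l))) = 0 := by
      intro k
      rw [hkill]
      split_ifs with hk
      · rfl
      let g := e.toAlgHom
      let D : Derivation ℂ BAlg BAlg := Derivation.mk'
        (e.symm.toLinearMap.comp ((MvPolynomial.pderiv k).toLinearMap.comp e.toLinearMap))
        (fun a b => by
          simp [Derivation.leibniz, mul_comm])
      have hDa : ∀ a, D a = e.symm (MvPolynomial.pderiv k (e a)) := fun a => rfl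
      have hit : ∀ (n : ℕ) (a : BAlg),
          e ((⇑D)^[n] a) = (⇑(MvPolynomial.pderiv k))^[n] (e a) := by
        intro n a
        induction n with
        | zero => rfl
        | succ n ih =>
          rw [Function.iterate_succ_apply', Function.iterate_succ_apply', hDa,
            AlgEquiv.apply_symm_apply, ih]
      have hnil : LocNil D := fun a => by
        obtain ⟨n, hn⟩ := locNil_pderiv k (e a)
        exact ⟨n, e.injective (by rw [hit, hn, map_zero])⟩
      have hDx : D xB = 0 := by
        rw [hDa, hi, MvPolynomial.pderiv_X_of_ne (Ne.symm hk), map_zero]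
      obtain ⟨b, hb⟩ := deriv_mem D hnil hDx l
      rw [hDa] at hb
      have := congrArg e hb
      rw [AlgEquiv.apply_symm_apply, map_mul, hi] at this
      rw [this, map_mul]
      simp [kill]
    refine ⟨MvPolynomial.coeff 0 (kill (e (zGen l))), ?_⟩
    rw [← eq_C_of_pderiv_eq_zero _ h0]
    exact hcong _
  obtain ⟨c, b, hb⟩ := hq 0
  have hz : zGen 0 = algebraMap ℂ BAlg c + xB * e.symm b := by
    apply e.injective
    rw [map_add, map_mul, AlgEquiv.commutes, hi, AlgEquiv.apply_symm_apply,
      MvPolynomial.algebraMap_eq]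
    linear_combination hb
  have := congrArg (fun r : BAlg => eps (r : R7)) hz
  simp only [zGen, coe_iotaB, eps_iota4, e4_sec4, phiHom_X0] at this
  push_cast at this
  rw [map_add, map_mul, coe_xB, eps_x, zero_mul, add_zero, AlgHom.commutes] at this
  have h2 := le_phiA.2
  rw [this] at h2
  apply TT_ne_zero
  rw [← h2]
  have : Le (algebraMap ℂ CU c) ((0 : ℕ) : ℤ) :=
    le_of_natDegree (by simp [IsScalarTower.algebraMap_apply ℂ (Polynomial ℂ) CU])
  exact this 2 (by norm_num)

end Vale.Agent.P295
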