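import Mathlib

/-!
From a nontrivial, stably trivial algebra over a polynomial line to a stable coordinate that is
not a coordinate.
-/

namespace Vale.Agent.P295

open MvPolynomial

variable {B : Type} [CommRing B] [Algebra ℂ B]

/-- `Fin (a + b)`-polynomials as `Fin b`-polynomials over `Fin a`-polynomials. -/
noncomputable def splitVars (A : Type) [CommRing A] [Algebra ℂ A] (a b : ℕ) :
    MvPolynomial (Fin (a + b)) A ≃ₐ[ℂ] MvPolynomial (Fin b) (MvPolynomial (Fin a) A) :=
  ((renameEquiv A (finSumFinEquiv.symm.trans (Equiv.sumComm (Fin a) (Fin b)))).trans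
    (sumAlgEquiv A (Fin b) (Fin a))).restrictScalars ℂ

theorem splitVars_rename (a b : ℕ) (f : MvPolynomial (Fin a) ℂ) :
    splitVars ℂ a b (rename (Fin.castAdd b) f) = C f := by
  induction f using MvPolynomial.induction_on with
  | C c => simp [splitVars]
  | add p q hp hq => simp only [map_add, hp, hq]
  | mul_X p i hp =>
    simp only [map_mul, hp]
    congr 1
    simp [splitVars]

/-- An algebra isomorphism of polynomial rings in one variable fixing the variable descends. -/
theorem descend {A A' : Type} [CommRing A] [Algebra ℂ A] [CommRing A'] [Algebra ℂ A']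
    (G : Polynomial A ≃ₐ[ℂ] Polynomial A') (hG : G Polynomial.X = Polynomial.X) :
    Nonempty (A ≃ₐ[ℂ] A') := by
  let ev : Polynomial A →ₐ[ℂ] A := (Polynomial.aeval (0 : A)).restrictScalars ℂ
  let ev' : Polynomial A' →ₐ[ℂ] A' := (Polynomial.aeval (0 : A')).restrictScalars ℂ
  let f : A →ₐ[ℂ] A' := ev'.comp (G.toAlgHom.comp (IsScalarTower.toAlgHom ℂ A (Polynomial A)))
  let g : A' →ₐ[ℂ] A :=
    ev.comp (G.symm.toAlgHom.comp (IsScalarTower.toAlgHom ℂ A' (Polynomial A')))
  have hG' : G.symm Polynomial.X = Polynomial.X := by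
    conv_lhs => rw [← hG]
    rw [AlgEquiv.symm_apply_apply]
  have hsplit : ∀ p : Polynomial A', ∃ q,
      p = Polynomial.C (ev' p) + Polynomial.X * q := fun p => by
    refine ⟨p.divX, ?_⟩
    conv_lhs => rw [← Polynomial.X_mul_divX_add p]
    simp [ev', Polynomial.coeff_zero_eq_eval_zero, add_comm]
  have hsplit' : ∀ p : Polynomial A, ∃ q,
      p = Polynomial.C (ev p) + Polynomial.X * q := fun p => by
    refine ⟨p.divX, ?_⟩
    conv_lhs => rw [← Polynomial.X_mul_divX_add p]
    simp [ev, Polynomial.coeff_zero_eq_eval_zero, add_comm]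
  refine ⟨AlgEquiv.ofAlgHom f g (AlgHom.ext fun a => ?_) (AlgHom.ext fun a => ?_)⟩
  · obtain ⟨q, hq⟩ := hsplit' (G.symm (Polynomial.C a))
    have h := congrArg G hq
    rw [AlgEquiv.apply_symm_apply, map_add, map_mul, hG] at h
    have h' := congrArg ev' h
    simp [ev'] at h'
    simp [f, g, ev', ev] at h' ⊢
    exact h'.symm
  · obtain ⟨q, hq⟩ := hsplit (G (Polynomial.C a))
    have h := congrArg G.symm hq
    rw [AlgEquiv.symm_apply_apply, map_add, map_mul, hG'] at h
    have h' := congrArg ev h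
    simp [ev] at h'
    simp [f, g, ev', ev] at h' ⊢
    exact h'.symm

theorem exists_stable_noncoordinate (x : B)
    (E : MvPolynomial (Fin 3) B ≃ₐ[ℂ] MvPolynomial (Fin 7) ℂ)
    (hE : E (C x) = X 0)
    (hno : ¬ ∃ (e : B ≃ₐ[ℂ] MvPolynomial (Fin 4) ℂ) (i : Fin 4), e x = X i) :
    ∃ (n m : ℕ) (f : MvPolynomial (Fin n) ℂ), 4 ≤ n ∧ n ≤ 7 ∧ 1 ≤ m ∧
      (∃ (e : MvPolynomial (Fin (n + m)) ℂ ≃ₐ[ℂ] MvPolynomial (Fin (n + m)) ℂ) (i : Fin (n + m)),
        e (rename (Fin.castAdd m) f) = X i) ∧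
      ¬ ∃ (e : MvPolynomial (Fin n) ℂ ≃ₐ[ℂ] MvPolynomial (Fin n) ℂ) (i : Fin n), e f = X i := by
  classical
  by_cases h0 : Nonempty (B ≃ₐ[ℂ] MvPolynomial (Fin 4) ℂ)
  · obtain ⟨e⟩ := h0
    refine ⟨4, 3, e x, le_rfl, by norm_num, by norm_num, ⟨((splitVars ℂ 4 3).trans
      (MvPolynomial.mapAlgEquiv (Fin 3) e.symm)).trans E, 0, ?_⟩, ?_⟩
    · rw [AlgEquiv.trans_apply, AlgEquiv.trans_apply, splitVars_rename, ← hE]
      simp
    · rintro ⟨e', i, hi⟩
      exact hno ⟨e.trans e', i, by rw [AlgEquiv.trans_apply, hi]⟩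
  · have hex : ∃ k, Nonempty (MvPolynomial (Fin k) B ≃ₐ[ℂ] MvPolynomial (Fin (4 + k)) ℂ) :=
      ⟨3, ⟨E⟩⟩
    obtain ⟨k, hk⟩ : ∃ k, Nat.find hex = k + 1 := by
      refine Nat.exists_eq_succ_of_ne_zero fun hz => h0 ?_
      have := Nat.find_spec hex
      rw [hz] at this
      obtain ⟨e⟩ := this
      exact ⟨((isEmptyAlgEquiv B (Fin 0)).restrictScalars ℂ).symm.trans e⟩
    have hk2 : k ≤ 2 := by
      have := Nat.find_min' hex ⟨E⟩
      omega
    obtain ⟨e⟩ : Nonempty (MvPolynomial (Fin (k + 1)) B ≃ₐ[ℂ]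
        MvPolynomial (Fin (4 + (k + 1))) ℂ) := hk ▸ Nat.find_spec hex
    have hkno : ¬ Nonempty (MvPolynomial (Fin k) B ≃ₐ[ℂ] MvPolynomial (Fin (4 + k)) ℂ) :=
      Nat.find_min hex (by omega)
    refine ⟨4 + (k + 1), 3 - k, e (X 0), by omega, by omega, by omega, ?_, ?_⟩
    · have h3 : (k + 1) + (3 - k) = 3 + 1 := by omega
      have h8 : 4 + (k + 1) + (3 - k) = 7 + 1 := by omega
      let e1 : MvPolynomial (Fin (4 + (k + 1) + (3 - k))) ℂ ≃ₐ[ℂ]
          MvPolynomial (Fin (3 + 1)) B :=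
        (((splitVars ℂ _ _).trans (MvPolynomial.mapAlgEquiv (Fin (3 - k)) e.symm)).trans
          (splitVars B (k + 1) (3 - k)).symm).trans
            ((renameEquiv B (finCongr h3)).restrictScalars ℂ)
      have he1 : e1 (rename (Fin.castAdd (3 - k)) (e (X 0))) = X 0 := by
        simp only [e1, AlgEquiv.trans_apply, splitVars_rename]
        have hs : splitVars B (k + 1) (3 - k) (X (Fin.castAdd (3 - k) 0)) =
            C (X (0 : Fin (k + 1))) := by
          simp [splitVars]
        have hm : MvPolynomial.mapAlgEquiv (Fin (3 - k)) e.symm (C (e (X 0))) =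
            C (X (0 : Fin (k + 1))) := by
          simp
        rw [hm, ← hs, AlgEquiv.symm_apply_apply]
        simp
        rfl
      let e2 : MvPolynomial (Fin (3 + 1)) B ≃ₐ[ℂ] MvPolynomial (Fin (7 + 1)) ℂ :=
        (((finSuccEquiv B 3).restrictScalars ℂ).trans (Polynomial.mapAlgEquiv E)).trans
          (finSuccEquiv ℂ 7).symm
      have he2 : e2 (X 0) = X 0 := by
        apply (finSuccEquiv ℂ 7).injective
        simp [e2, finSuccEquiv_X_zero]
      refine ⟨(e1.trans e2).trans (renameEquiv ℂ (finCongr h8.symm)),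
        finCongr h8.symm 0, ?_⟩
      simp only [AlgEquiv.trans_apply, he1, he2]
      simp
    · rintro ⟨e', i, hi⟩
      apply hkno
      let G0 : MvPolynomial (Fin (k + 1)) B ≃ₐ[ℂ] MvPolynomial (Fin (4 + k + 1)) ℂ :=
        (e.trans e').trans (renameEquiv ℂ (Equiv.swap (0 : Fin (4 + k + 1)) i))
      have hG0 : G0 (X 0) = X 0 := by
        simp only [G0, AlgEquiv.trans_apply, hi]
        simp only [renameEquiv_apply]
        rw [rename_X]
        exact congrArg X (Equiv.swap_apply_right _ _)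
      let G : Polynomial (MvPolynomial (Fin k) B) ≃ₐ[ℂ]
          Polynomial (MvPolynomial (Fin (4 + k)) ℂ) :=
        (((finSuccEquiv B k).restrictScalars ℂ).symm.trans G0).trans (finSuccEquiv ℂ (4 + k))
      refine descend G ?_
      have hX : ((finSuccEquiv B k).restrictScalars ℂ).symm Polynomial.X = X 0 := by
        apply ((finSuccEquiv B k).restrictScalars ℂ).injective
        rw [AlgEquiv.apply_symm_apply]
        exact finSuccEquiv_X_zero.symm
      simp only [G, AlgEquiv.trans_apply, hX, hG0]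
      exact finSuccEquiv_X_zero

end Vale.Agent.P295
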