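import Mathlib

/-!
Explicit data: the cubic surface `Phi = 0`, the parametrisation `(phiA, phiB, phiK)` of an
open affine plane in it, the extra function `gG`, a left inverse `(invU, invT)` of
`(phiA, phiB, phiK, gG)` and a vector `(mA, mB, mK)` dual to the gradient along the plane.
-/

namespace Vale.Agent.P295

variable {A : Type*} [CommRing A] [Algebra ℂ A]

def fF (a b : A) : A := 4*a*b^2 - 4*a^3 + 21*a^2 - 4*a*b - 20*a + 4

def Phi (a b k : A) : A := k^2 - fF a b

def phiA (u t : A) : A := u^2*t^2 - u^2 - u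

def phiB (u t : A) : A := u^2*t^3 - u^2*t + u*t^2 - u - u*t - 2*t

def phiK (u t : A) : A :=
  2*u^3*t^4 - 4*u^3*t^2 + 2*u^3 + 2*u^2*t^3 - 3*u^2*t^2 - 2*u^2*t + 3*u^2 - 4*u*t^2 - 2*u*t
    + 5*u + 2

def gG (u t : A) : A := t + u

def dA (u t : A) : A :=
  -(4*(phiB u t)^2 - 12*(phiA u t)^2 + 42*(phiA u t) - 4*(phiB u t) - 20)

def dB (u t : A) : A := -(8*(phiA u t)*(phiB u t) - 4*(phiA u t))

def dK (u t : A) : A := 2*(phiK u t)

noncomputable def c360 : A := algebraMap ℂ A (1/360)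

theorem c360_mul : (c360 : A) * 360 = 1 := by
  have h : algebraMap ℂ A (1/360) * algebraMap ℂ A 360 = 1 := by
    rw [← map_mul]; norm_num
  simpa [c360, map_ofNat] using h

noncomputable def mA (u _t : A) : A := c360 * (-64*u)

noncomputable def mB (u t : A) : A := c360 * (22*u*t^2 - 64*u*t - 22*u + 38*t - 43)

noncomputable def mK (u t : A) : A :=
  c360 * (44*u^2*t^3 - 192*u^2*t^2 - 44*u^2*t + 192*u^2 + 76*u*t^2 - 172*u*t + 52*u + 90)

noncomputable def invU (a b k g : A) : A := c360 * (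
    -38*a^4 - 88*a^3*b - 43*a^3*g + 386*a^3 - 82*a^2*b*g + 523*a^2*b + 19*a^2*k*g -
    12*a^2*k + 181*a^2*g - 1228*a^2 - 64*a*b^2*g + 120*a*b^2 + 44*a*b*k*g - 19*a*b*k +
    538*a*b*g - 741*a*b - 161*a*k*g - 64*a*k - 50*a*g + 1311*a + 152*b^3 - 44*b^2*k +
    304*b^2*g - 544*b^2 - 164*b*k*g + 85*b*k - 936*b*g + 198*b + 322*k*g + 235*k + 92*g -
    470)

noncomputable def invT (a b k g : A) : A := g - invU a b k g

/-- The second order term of `Phi` at a point of the plane. -/
def omega2 (x u t za zb zk : A) : A :=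
  zk^2 - (4*(phiA u t)*zb^2 + 8*(phiB u t)*za*zb + 4*x*za*zb^2 - 12*(phiA u t)*za^2
    - 4*x*za^3 + 21*za^2 - 4*za*zb)

omit [Algebra ℂ A] in
theorem Phi_phi (u t : A) : Phi (phiA u t) (phiB u t) (phiK u t) = 0 := by
  simp only [Phi, fF, phiA, phiB, phiK]; ring

theorem dual_m (u t : A) :
    dA u t * mA u t + dB u t * mB u t + dK u t * mK u t = 1 := by
  rw [← c360_mul (A := A)]
  simp only [dA, dB, dK, mA, mB, mK, phiA, phiB, phiK]; ring

theorem invU_phi (u t : A) :
    invU (phiA u t) (phiB u t) (phiK u t) (gG u t) = u := by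
  have key : ∀ c : A, c * (
    -38*(phiA u t)^4 - 88*(phiA u t)^3*(phiB u t) - 43*(phiA u t)^3*(gG u t) + 386*(phiA u
    t)^3 - 82*(phiA u t)^2*(phiB u t)*(gG u t) + 523*(phiA u t)^2*(phiB u t) + 19*(phiA u
    t)^2*(phiK u t)*(gG u t) - 12*(phiA u t)^2*(phiK u t) + 181*(phiA u t)^2*(gG u t) -
    1228*(phiA u t)^2 - 64*(phiA u t)*(phiB u t)^2*(gG u t) + 120*(phiA u t)*(phiB u t)^2
    + 44*(phiA u t)*(phiB u t)*(phiK u t)*(gG u t) - 19*(phiA u t)*(phiB u t)*(phiK u t) +
    538*(phiA u t)*(phiB u t)*(gG u t) - 741*(phiA u t)*(phiB u t) - 161*(phiA u t)*(phiK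
    u t)*(gG u t) - 64*(phiA u t)*(phiK u t) - 50*(phiA u t)*(gG u t) + 1311*(phiA u t) +
    152*(phiB u t)^3 - 44*(phiB u t)^2*(phiK u t) + 304*(phiB u t)^2*(gG u t) - 544*(phiB
    u t)^2 - 164*(phiB u t)*(phiK u t)*(gG u t) + 85*(phiB u t)*(phiK u t) - 936*(phiB u
    t)*(gG u t) + 198*(phiB u t) + 322*(phiK u t)*(gG u t) + 235*(phiK u t) + 92*(gG u t)
    - 470) = c * 360 * u := by
    intro c; simp only [phiA, phiB, phiK, gG]; ring
  simp only [invU]
  rw [key, c360_mul, one_mul]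

theorem invT_phi (u t : A) :
    invT (phiA u t) (phiB u t) (phiK u t) (gG u t) = t := by
  rw [invT, invU_phi, gG]; ring

omit [Algebra ℂ A] in
theorem Phi_expand (x u t za zb zk : A) :
    Phi (phiA u t + x*za) (phiB u t + x*zb) (phiK u t + x*zk) =
      x * (dA u t * za + dB u t * zb + dK u t * zk + x * omega2 x u t za zb zk) := by
  have h := Phi_phi u t
  simp only [Phi, fF, dA, dB, dK, omega2] at h ⊢
  linear_combination h

section map

variable {A' : Type*} [CommRing A'] [Algebra ℂ A'] (F : A →ₐ[ℂ] A')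

@[simp] theorem map_Phi (a b k : A) : F (Phi a b k) = Phi (F a) (F b) (F k) := by
  simp [Phi, fF, map_ofNat]

@[simp] theorem map_phiA (u t : A) : F (phiA u t) = phiA (F u) (F t) := by
  simp [phiA]

@[simp] theorem map_phiB (u t : A) : F (phiB u t) = phiB (F u) (F t) := by
  simp [phiB, map_ofNat]

@[simp] theorem map_phiK (u t : A) : F (phiK u t) = phiK (F u) (F t) := by
  simp [phiK, map_ofNat]

@[simp] theorem map_gG (u t : A) : F (gG u t) = gG (F u) (F t) := by
  simp [gG]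

@[simp] theorem map_c360 : F (c360 : A) = c360 := by
  simp [c360]

@[simp] theorem map_invU (a b k g : A) : F (invU a b k g) = invU (F a) (F b) (F k) (F g) := by
  simp [invU, map_ofNat]

@[simp] theorem map_invT (a b k g : A) : F (invT a b k g) = invT (F a) (F b) (F k) (F g) := by
  simp [invT]

@[simp] theorem map_dA (u t : A) : F (dA u t) = dA (F u) (F t) := by
  simp [dA, map_ofNat]

@[simp] theorem map_dB (u t : A) : F (dB u t) = dB (F u) (F t) := by
  simp [dB, map_ofNat]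

@[simp] theorem map_dK (u t : A) : F (dK u t) = dK (F u) (F t) := by
  simp [dK, map_ofNat]

@[simp] theorem map_mA (u t : A) : F (mA u t) = mA (F u) (F t) := by
  simp [mA, map_ofNat]

@[simp] theorem map_mB (u t : A) : F (mB u t) = mB (F u) (F t) := by
  simp [mB, map_ofNat]

@[simp] theorem map_mK (u t : A) : F (mK u t) = mK (F u) (F t) := by
  simp [mK, map_ofNat]

@[simp] theorem map_omega2 (x u t za zb zk : A) :
    F (omega2 x u t za zb zk) = omega2 (F x) (F u) (F t) (F za) (F zb) (F zk) := by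
  simp [omega2, map_ofNat]

end map

end Vale.Agent.P295
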