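import Vale.Agent.P295.Data

/-!
The pullback of polynomials in three variables along the parametrisation of the plane, and the
leading coefficients (in the variable `u`) of such pullbacks.
-/

namespace Vale.Agent.P295

open Polynomial

/-- Polynomials in the three ambient variables. -/
abbrev Z3 := MvPolynomial (Fin 3) ℂ
/-- Polynomials in two variables. -/
abbrev Z2 := MvPolynomial (Fin 2) ℂ
/-- Polynomials in `u` over polynomials in `t`. -/
abbrev CU := Polynomial (Polynomial ℂ)

noncomputable def u0 : CU := X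
noncomputable def t0 : CU := C X
noncomputable def TT : ℂ[X] := X ^ 2 - 1

noncomputable def PhiP : Z3 := Phi (MvPolynomial.X 0) (MvPolynomial.X 1) (MvPolynomial.X 2)

noncomputable def phiHom : Z3 →ₐ[ℂ] CU :=
  MvPolynomial.aeval ![phiA u0 t0, phiB u0 t0, phiK u0 t0]

noncomputable def incl2 : Z2 →ₐ[ℂ] Z3 :=
  MvPolynomial.aeval ![MvPolynomial.X 0, MvPolynomial.X 1]

@[simp] theorem phiHom_X0 : phiHom (MvPolynomial.X 0) = phiA u0 t0 := by simp [phiHom]
@[simp] theorem phiHom_X1 : phiHom (MvPolynomial.X 1) = phiB u0 t0 := by simp [phiHom]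
@[simp] theorem phiHom_X2 : phiHom (MvPolynomial.X 2) = phiK u0 t0 := by simp [phiHom]

theorem phiHom_PhiP : phiHom PhiP = 0 := by
  rw [PhiP, map_Phi]; simp only [phiHom_X0, phiHom_X1, phiHom_X2]; exact Phi_phi _ _

theorem normalForm (p : Z3) : ∃ q0 q1 : Z2,
    PhiP ∣ p - (incl2 q0 + MvPolynomial.X 2 * incl2 q1) := by
  induction p using MvPolynomial.induction_on with
  | C c => exact ⟨MvPolynomial.C c, 0, by simp [incl2]⟩
  | add p q hp hq =>
    obtain ⟨a0, a1, ha⟩ := hp
    obtain ⟨b0, b1, hb⟩ := hq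
    refine ⟨a0 + b0, a1 + b1, ?_⟩
    have := dvd_add ha hb
    convert this using 1
    simp only [map_add]; ring
  | mul_X p i hp =>
    obtain ⟨a0, a1, ha⟩ := hp
    fin_cases i
    · refine ⟨a0 * MvPolynomial.X 0, a1 * MvPolynomial.X 0, ?_⟩
      convert Dvd.dvd.mul_right ha (MvPolynomial.X (0 : Fin 3)) using 1
      simp [incl2]; ring
    · refine ⟨a0 * MvPolynomial.X 1, a1 * MvPolynomial.X 1, ?_⟩
      convert Dvd.dvd.mul_right ha (MvPolynomial.X (1 : Fin 3)) using 1
      simp [incl2]; ring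
    · refine ⟨fF (MvPolynomial.X 0) (MvPolynomial.X 1) * a1, a0, ?_⟩
      have h2 := dvd_add (Dvd.dvd.mul_right ha (MvPolynomial.X (2 : Fin 3)))
        (dvd_mul_right PhiP (incl2 a1))
      convert h2 using 1
      have : incl2 (fF (MvPolynomial.X 0) (MvPolynomial.X 1)) =
          fF (MvPolynomial.X 0) (MvPolynomial.X 1) := by
        simp [fF, incl2, map_ofNat]
      simp only [map_mul, this, PhiP, Phi, Fin.isValue, Fin.reduceFinMk]
      ring

/-- Coefficient at an integer index. -/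
noncomputable def cf (r : CU) (n : ℤ) : ℂ[X] := if 0 ≤ n then r.coeff n.toNat else 0

/-- All coefficients above `n` vanish. -/
def Le (r : CU) (n : ℤ) : Prop := ∀ m : ℤ, n < m → cf r m = 0

theorem cf_natCast (r : CU) (n : ℕ) : cf r n = r.coeff n := by simp [cf]

theorem cf_neg (r : CU) {n : ℤ} (h : n < 0) : cf r n = 0 := by simp [cf, not_le.2 h]

theorem cf_add (r s : CU) (n : ℤ) : cf (r + s) n = cf r n + cf s n := by
  unfold cf; split <;> simp

theorem cf_sub (r s : CU) (n : ℤ) : cf (r - s) n = cf r n - cf s n := by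
  unfold cf; split <;> simp

theorem cf_smul (c : ℂ) (r : CU) (n : ℤ) : cf (c • r) n = c • cf r n := by
  unfold cf; split <;> simp

@[simp] theorem cf_zero (n : ℤ) : cf 0 n = 0 := by simp [cf]

theorem cf_sum {ι : Type*} (s : Finset ι) (r : ι → CU) (n : ℤ) :
    cf (∑ i ∈ s, r i) n = ∑ i ∈ s, cf (r i) n := by
  classical
  induction s using Finset.induction with
  | empty => simp
  | insert a s ha ih => simp [Finset.sum_insert ha, cf_add, ih]

theorem Le.mono {r : CU} {n m : ℤ} (h : Le r n) (hnm : n ≤ m) : Le r m :=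
  fun k hk => h k (lt_of_le_of_lt hnm hk)

theorem Le.cf_eq_zero {r : CU} {n m : ℤ} (h : Le r n) (hnm : n < m) : cf r m = 0 := h m hnm

theorem Le.zero (n : ℤ) : Le (0 : CU) n := fun m _ => cf_zero m

theorem Le.add {r s : CU} {n : ℤ} (hr : Le r n) (hs : Le s n) : Le (r + s) n :=
  fun m hm => by rw [cf_add, hr m hm, hs m hm, add_zero]

theorem Le.sub {r s : CU} {n : ℤ} (hr : Le r n) (hs : Le s n) : Le (r - s) n :=
  fun m hm => by rw [cf_sub, hr m hm, hs m hm, sub_zero]

theorem Le.smul {r : CU} {n : ℤ} (hr : Le r n) (c : ℂ) : Le (c • r) n :=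
  fun m hm => by rw [cf_smul, hr m hm, smul_zero]

theorem Le.eq_zero {r : CU} {n : ℤ} (hr : Le r n) (hn : n < 0) : r = 0 := by
  ext1 k
  simpa [cf_natCast] using hr k (by omega)

theorem le_of_natDegree {r : CU} {n : ℕ} (h : r.natDegree ≤ n) : Le r n := by
  intro m hm
  lift m to ℕ using (by omega) with k
  rw [cf_natCast]
  exact coeff_eq_zero_of_natDegree_lt (by omega)

theorem Le.natDegree_le {r : CU} {n : ℕ} (h : Le r n) : r.natDegree ≤ n := by
  rw [natDegree_le_iff_coeff_eq_zero]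
  intro k hk
  simpa [cf_natCast] using h k (by omega)

theorem le_natDegree (r : CU) : Le r r.natDegree := le_of_natDegree le_rfl

theorem cf_natDegree {r : CU} (h : r ≠ 0) : cf r r.natDegree ≠ 0 := by
  rw [cf_natCast]; exact leadingCoeff_ne_zero.2 h

theorem Le.mul {r s : CU} {n m : ℤ} (hr : Le r n) (hs : Le s m) :
    Le (r * s) (n + m) ∧ cf (r * s) (n + m) = cf r n * cf s m := by
  rcases lt_or_ge n 0 with hn | hn
  · rw [hr.eq_zero hn]; simp [Le.zero]
  rcases lt_or_ge m 0 with hm | hm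
  · rw [hs.eq_zero hm]; simp [Le.zero]
  lift n to ℕ using hn
  lift m to ℕ using hm
  rw [← Nat.cast_add, cf_natCast, cf_natCast, cf_natCast]
  exact ⟨le_of_natDegree (natDegree_mul_le_of_le hr.natDegree_le hs.natDegree_le),
    coeff_mul_add_eq_of_natDegree_le hr.natDegree_le hs.natDegree_le⟩

theorem Le.pow {r : CU} {n : ℤ} (hr : Le r n) (k : ℕ) :
    Le (r ^ k) (k * n) ∧ cf (r ^ k) (k * n) = cf r n ^ k := by
  induction k with
  | zero =>
    have h : Le (1 : CU) ((0 : ℕ) : ℤ) := le_of_natDegree (by simp)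
    simpa [cf] using h
  | succ k ih =>
    have := ih.1.mul hr
    rw [pow_succ, pow_succ, show ((k + 1 : ℕ) : ℤ) * n = k * n + n by push_cast; ring]
    exact ⟨this.1, by rw [this.2, ih.2]⟩

theorem le_phiA : Le (phiA u0 t0) 2 ∧ cf (phiA u0 t0) 2 = TT := by
  have h : phiA u0 t0 = C TT * X ^ 2 + C (-1 : ℂ[X]) * X := by
    simp [phiA, u0, t0, TT]; ring
  rw [h]
  refine ⟨le_of_natDegree (n := 2) (by compute_degree!), ?_⟩
  rw [show (2 : ℤ) = ((2 : ℕ) : ℤ) from rfl, cf_natCast]
  simp only [coeff_add, coeff_C_mul, coeff_X_pow, coeff_X, coeff_C]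
  norm_num

theorem le_phiB : Le (phiB u0 t0) 2 ∧ cf (phiB u0 t0) 2 = TT * X := by
  have h : phiB u0 t0 =
      C (TT * X) * X ^ 2 + C (X ^ 2 - 1 - X : ℂ[X]) * X + C (-2 * X : ℂ[X]) := by
    simp [phiB, u0, t0, TT, C_ofNat]; ring
  rw [h]
  refine ⟨le_of_natDegree (n := 2) (by compute_degree!), ?_⟩
  rw [show (2 : ℤ) = ((2 : ℕ) : ℤ) from rfl, cf_natCast]
  simp only [coeff_add, coeff_C_mul, coeff_X_pow, coeff_X, coeff_C]
  norm_num

theorem le_phiK : Le (phiK u0 t0) 3 ∧ cf (phiK u0 t0) 3 = 2 * TT ^ 2 := by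
  have h : phiK u0 t0 = C (2 * TT ^ 2) * X ^ 3
      + C (2 * X ^ 3 - 3 * X ^ 2 - 2 * X + 3 : ℂ[X]) * X ^ 2
      + C (-4 * X ^ 2 - 2 * X + 5 : ℂ[X]) * X + C (2 : ℂ[X]) := by
    simp [phiK, u0, t0, TT, C_ofNat]; ring
  rw [h]
  refine ⟨le_of_natDegree (n := 3) (by compute_degree!), ?_⟩
  rw [show (3 : ℤ) = ((3 : ℕ) : ℤ) from rfl, cf_natCast]
  simp only [coeff_add, coeff_C_mul, coeff_X_pow, coeff_X, coeff_C]
  norm_num

theorem TT_ne_zero : TT ≠ 0 := by
  intro h
  have := congrArg (Polynomial.eval 0) h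
  simp [TT] at this

theorem phiK_ne_zero : phiK u0 t0 ≠ 0 := by
  intro h
  have := le_phiK.2
  rw [h, cf_zero] at this
  exact mul_ne_zero (two_ne_zero) (pow_ne_zero 2 TT_ne_zero) this.symm

/-- The exponent `(m - j, j)`. -/
noncomputable def expo (m j : ℕ) : Fin 2 →₀ ℕ :=
  Finsupp.single 0 (m - j) + Finsupp.single 1 j

/-- Dehomogenisation of the degree `m` part. -/
noncomputable def dehom (m : ℕ) (q : Z2) : ℂ[X] :=
  ∑ j ∈ Finset.range (m + 1), monomial j (MvPolynomial.coeff (expo m j) q)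

theorem dehom_add (m : ℕ) (p q : Z2) : dehom m (p + q) = dehom m p + dehom m q := by
  simp [dehom, Finset.sum_add_distrib]

@[simp] theorem dehom_zero (m : ℕ) : dehom m 0 = 0 := by simp [dehom]

theorem dehom_sum {ι : Type*} (s : Finset ι) (m : ℕ) (q : ι → Z2) :
    dehom m (∑ i ∈ s, q i) = ∑ i ∈ s, dehom m (q i) := by
  classical
  induction s using Finset.induction with
  | empty => simp
  | insert a s ha ih => simp [Finset.sum_insert ha, dehom_add, ih]

theorem natDegree_dehom_le (m : ℕ) (q : Z2) : (dehom m q).natDegree ≤ m :=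
  natDegree_sum_le_of_forall_le _ _ fun j hj =>
    (natDegree_monomial_le _).trans (by simpa [Nat.lt_succ_iff] using hj)

noncomputable def psi2 : Z2 →ₐ[ℂ] CU := phiHom.comp incl2

theorem psi2_monomial (d : Fin 2 →₀ ℕ) (c : ℂ) :
    psi2 (MvPolynomial.monomial d c) = c • (phiA u0 t0 ^ d 0 * phiB u0 t0 ^ d 1) := by
  rw [Algebra.smul_def, MvPolynomial.monomial_eq, Finsupp.prod_fintype _ _ (by simp)]
  simp [psi2, incl2, phiHom, Fin.prod_univ_two, MvPolynomial.algebraMap_eq]

theorem le_psi2_monomial {m : ℕ} (d : Fin 2 →₀ ℕ) (c : ℂ) (hd : d 0 + d 1 ≤ m) :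
    Le (psi2 (MvPolynomial.monomial d c)) (2 * m) ∧
      cf (psi2 (MvPolynomial.monomial d c)) (2 * m) =
        TT ^ m * dehom m (MvPolynomial.monomial d c) := by
  classical
  have h := ((le_phiA.1.pow (d 0)).1.mul (le_phiB.1.pow (d 1)).1)
  rw [(le_phiA.1.pow (d 0)).2, (le_phiB.1.pow (d 1)).2, le_phiA.2, le_phiB.2] at h
  have hle := h.1.smul c
  rw [psi2_monomial]
  have hkey : ∀ j ∈ Finset.range (m + 1),
      expo m j = d ↔ (d 0 + d 1 = m ∧ j = d 1) := by
    intro j hj
    rw [Finset.mem_range] at hj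
    constructor
    · rintro rfl; simp [expo]; omega
    · rintro ⟨h1, rfl⟩
      ext i; fin_cases i <;> simp [expo]; omega
  have hdeh : dehom m (MvPolynomial.monomial d c) =
      if d 0 + d 1 = m then monomial (d 1) c else 0 := by
    rw [dehom]
    split_ifs with hm
    · rw [Finset.sum_eq_single (d 1)]
      · rw [MvPolynomial.coeff_monomial,
          if_pos ((hkey (d 1) (by simp; omega)).2 ⟨hm, rfl⟩).symm]
      · intro j hj hne
        rw [MvPolynomial.coeff_monomial, if_neg, map_zero]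
        exact fun e => hne ((hkey j hj).1 e.symm).2
      · intro hn; exfalso; apply hn; simp; omega
    · refine Finset.sum_eq_zero fun j hj => ?_
      rw [MvPolynomial.coeff_monomial, if_neg, map_zero]
      exact fun e => hm ((hkey j hj).1 e.symm).1
  refine ⟨hle.mono (by omega), ?_⟩
  rw [hdeh]
  split_ifs with hm
  · rw [cf_smul, show (2 * m : ℤ) = (d 0 : ℤ) * 2 + (d 1 : ℤ) * 2 by omega, h.2,
      Algebra.smul_def, ← C_mul_X_pow_eq_monomial, ← hm]
    simp; ring
  · rw [mul_zero]; exact hle _ (by omega)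

theorem le_psi2 {m : ℕ} (q : Z2) (hq : q.totalDegree ≤ m) :
    Le (psi2 q) (2 * m) ∧ cf (psi2 q) (2 * m) = TT ^ m * dehom m q := by
  classical
  have hsum : q = ∑ d ∈ q.support, MvPolynomial.monomial d (q.coeff d) := q.as_sum
  have hd : ∀ d ∈ q.support, d 0 + d 1 ≤ m := by
    intro d hd
    have := (MvPolynomial.le_totalDegree hd).trans hq
    rwa [Finsupp.sum_fintype _ _ (fun _ => rfl), Fin.sum_univ_two] at this
  rw [hsum, map_sum]
  constructor
  · intro k hk
    rw [cf_sum]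
    exact Finset.sum_eq_zero fun d h => (le_psi2_monomial d _ (hd d h)).1 k hk
  · rw [cf_sum, dehom_sum, Finset.mul_sum]
    exact Finset.sum_congr rfl fun d h => (le_psi2_monomial d _ (hd d h)).2

theorem dehom_totalDegree_ne_zero {q : Z2} (hq : q ≠ 0) : dehom q.totalDegree q ≠ 0 := by
  classical
  obtain ⟨d, hd, hdeg⟩ := Finset.exists_mem_eq_sup q.support
    (MvPolynomial.support_nonempty.2 hq) (fun s => s.sum fun _ e => e)
  have hdeg' : d 0 + d 1 = q.totalDegree := by
    rw [MvPolynomial.totalDegree, hdeg, Finsupp.sum_fintype _ _ (fun _ => rfl), Fin.sum_univ_two]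
  intro h
  have := congrArg (fun p => Polynomial.coeff p (d 1)) h
  simp only [dehom, finsetSum_coeff, coeff_monomial, coeff_zero] at this
  rw [Finset.sum_ite_eq', if_pos (by simp; omega)] at this
  apply MvPolynomial.mem_support_iff.1 hd
  have hexp : expo q.totalDegree (d 1) = d := by
    ext i; fin_cases i <;> simp [expo]; omega
  rwa [hexp] at this

/-- Every element has a representative whose weight is bounded by the degree of its pullback. -/
theorem exists_rep (p : Z3) {n : ℤ} (hp : Le (phiHom p) n) : ∃ q0 q1 : Z2,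
    phiHom p = psi2 q0 + phiK u0 t0 * psi2 q1 ∧
    PhiP ∣ p - (incl2 q0 + MvPolynomial.X 2 * incl2 q1) ∧
    (q0 = 0 ∨ (2 * q0.totalDegree : ℤ) ≤ n) ∧ (q1 = 0 ∨ (2 * q1.totalDegree + 3 : ℤ) ≤ n) := by
  obtain ⟨q0, q1, hdiv⟩ := normalForm p
  have heq : phiHom p = psi2 q0 + phiK u0 t0 * psi2 q1 := by
    obtain ⟨c, hc⟩ := hdiv
    have := congrArg phiHom hc
    simp only [map_sub, map_mul, map_add, phiHom_PhiP, zero_mul, phiHom_X2, sub_eq_zero] at this
    simpa [psi2] using this
  refine ⟨q0, q1, heq, hdiv, ?_⟩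
  set e0 : ℤ := 2 * q0.totalDegree with he0
  set e1 : ℤ := 2 * q1.totalDegree + 3 with he1
  have h0 := le_psi2 q0 (le_refl q0.totalDegree)
  have h1 := le_phiK.1.mul (le_psi2 q1 (le_refl q1.totalDegree)).1
  rw [(le_psi2 q1 (le_refl q1.totalDegree)).2, le_phiK.2,
    show (3 : ℤ) + 2 * q1.totalDegree = e1 by omega] at h1
  have hne : e0 ≠ e1 := by omega
  have t1 : q0 ≠ 0 → cf (psi2 q0) e0 ≠ 0 := fun h => by
    rw [h0.2]; exact mul_ne_zero (pow_ne_zero _ TT_ne_zero) (dehom_totalDegree_ne_zero h)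
  have t2 : q1 ≠ 0 → cf (phiK u0 t0 * psi2 q1) e1 ≠ 0 := fun h => by
    rw [h1.2]
    exact mul_ne_zero (mul_ne_zero two_ne_zero (pow_ne_zero _ TT_ne_zero))
      (mul_ne_zero (pow_ne_zero _ TT_ne_zero) (dehom_totalDegree_ne_zero h))
  rw [heq] at hp
  by_contra hcon
  rcases lt_or_gt_of_ne hne with hlt | hgt
  · by_cases hq1 : q1 = 0
    · subst hq1
      simp only [map_zero, mul_zero, add_zero] at hp
      simp only [not_and_or, not_or, not_le] at hcon
      rcases hcon with ⟨a, b⟩ | ⟨a, _⟩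
      · exact t1 a (hp _ b)
      · exact a trivial
    · have hn : n < e1 := by
        simp only [not_and_or, not_or, not_le] at hcon
        rcases hcon with ⟨_, b⟩ | ⟨_, b⟩ <;> omega
      have := hp _ hn
      rw [cf_add, h0.1 _ hlt, zero_add] at this
      exact t2 hq1 this
  · by_cases hq0 : q0 = 0
    · subst hq0
      simp only [map_zero, zero_add] at hp
      simp only [not_and_or, not_or, not_le] at hcon
      rcases hcon with ⟨a, _⟩ | ⟨a, b⟩
      · exact a trivial
      · exact t2 a (hp _ b)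
    · have hn : n < e0 := by
        simp only [not_and_or, not_or, not_le] at hcon
        rcases hcon with ⟨_, b⟩ | ⟨_, b⟩ <;> omega
      have := hp _ hn
      rw [cf_add, h1.1 _ hgt, add_zero] at this
      exact t1 hq0 this

theorem phiHom_eq_zero_iff (p : Z3) : phiHom p = 0 ↔ PhiP ∣ p := by
  refine ⟨fun h => ?_, fun ⟨c, hc⟩ => by rw [hc, map_mul, phiHom_PhiP, zero_mul]⟩
  obtain ⟨q0, q1, -, hdiv, h0, h1⟩ := exists_rep p (n := -1) (by rw [h]; exact Le.zero _)
  have a0 : q0 = 0 := h0.resolve_right (by omega)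
  have a1 : q1 = 0 := h1.resolve_right (by omega)
  simpa [a0, a1] using hdiv

/-- Leading coefficient in even weight. -/
theorem top_even (p : Z3) (m : ℕ) (hp : Le (phiHom p) (2 * m)) :
    ∃ q : Z2, q.totalDegree ≤ m ∧ cf (phiHom p) (2 * m) = TT ^ m * dehom m q := by
  obtain ⟨q0, q1, heq, -, h0, h1⟩ := exists_rep p hp
  have hq0 : q0.totalDegree ≤ m := by
    rcases h0 with rfl | h
    · simp
    · omega
  refine ⟨q0, hq0, ?_⟩
  rw [heq, cf_add, (le_psi2 q0 hq0).2]
  rcases h1 with rfl | h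
  · simp
  · rw [(le_phiK.1.mul (le_psi2 q1 le_rfl).1).1 _ (by omega), add_zero]

/-- Leading coefficient in odd weight. -/
theorem top_odd (p : Z3) {n : ℤ} (hn : n % 2 = 1) (hp : Le (phiHom p) n) :
    ∃ q : Z3, Le (phiHom q) (n - 3) ∧
      cf (phiHom p) n = 2 * TT ^ 2 * cf (phiHom q) (n - 3) := by
  obtain ⟨q0, q1, heq, -, h0, h1⟩ := exists_rep p hp
  have hq1 : Le (psi2 q1) (n - 3) := by
    rcases h1 with rfl | h
    · rw [map_zero]; exact Le.zero _
    · exact (le_psi2 q1 le_rfl).1.mono (by omega)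
  refine ⟨incl2 q1, hq1, ?_⟩
  have hk := le_phiK.1.mul hq1
  rw [add_sub_cancel] at hk
  rw [heq, cf_add, hk.2, le_phiK.2]
  rcases h0 with rfl | h
  · simp [psi2]
  · rw [(le_psi2 q0 le_rfl).1 _ (by omega), zero_add]; rfl

theorem exists_dehom {m : ℕ} (P : ℂ[X]) (hP : P.natDegree ≤ m) :
    ∃ q : Z2, q.totalDegree ≤ m ∧ dehom m q = P := by
  classical
  refine ⟨∑ j ∈ Finset.range (m + 1), MvPolynomial.monomial (expo m j) (P.coeff j), ?_, ?_⟩
  · refine (MvPolynomial.totalDegree_finsetSum _ _).trans (Finset.sup_le fun j hj => ?_)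
    refine (MvPolynomial.totalDegree_monomial_le _ _).trans ?_
    rw [Finset.mem_range] at hj
    rw [Finsupp.sum_fintype _ _ (fun _ => rfl)]
    simp [expo, Fin.sum_univ_two]; omega
  · conv_rhs => rw [P.as_sum_range' (m + 1) (by omega)]
    rw [dehom_sum]
    refine Finset.sum_congr rfl fun j hj => ?_
    rw [dehom, Finset.sum_eq_single j]
    · simp
    · intro i hi hne
      rw [MvPolynomial.coeff_monomial, if_neg, map_zero]
      intro h
      apply hne
      simpa [expo] using (congrArg (fun d => d 1) h).symm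
    · intro h; exact absurd hj h

end Vale.Agent.P295
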