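import Vale.Agent.P295.Deriv
import Vale.Agent.P295.Weights

/-!
Every locally nilpotent derivation of the coordinate ring of the cubic surface is zero, in the
form: if a locally nilpotent derivation `E` of the polynomial ring preserves the ideal of the
surface then it maps every variable into that ideal.
-/

namespace Vale.Agent.P295

open Polynomial

section graded

variable (E : Derivation ℂ Z3 Z3)

/-- `p` and `E p` are bounded by the weights `n` and `n + d`. -/
def Bd (d : ℤ) (p : Z3) (n : ℤ) : Prop := Le (phiHom p) n ∧ Le (phiHom (E p)) (n + d)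

variable {E}

theorem Bd.mono {d n m : ℤ} {p : Z3} (h : Bd E d p n) (hnm : n ≤ m) : Bd E d p m :=
  ⟨h.1.mono hnm, h.2.mono (by omega)⟩

theorem Bd.add {d n : ℤ} {p q : Z3} (hp : Bd E d p n) (hq : Bd E d q n) : Bd E d (p + q) n :=
  ⟨by rw [map_add]; exact hp.1.add hq.1, by rw [map_add, map_add]; exact hp.2.add hq.2⟩

theorem Bd.zero (d n : ℤ) : Bd E d 0 n := by simp [Bd, Le.zero]

theorem Bd.mul {d n m : ℤ} {p q : Z3} (hp : Bd E d p n) (hq : Bd E d q m) :
    Bd E d (p * q) (n + m) := by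
  refine ⟨by rw [map_mul]; exact (hp.1.mul hq.1).1, ?_⟩
  rw [E.leibniz, map_add, smul_eq_mul, smul_eq_mul, map_mul, map_mul]
  exact ((hp.1.mul hq.2).1.mono (by omega)).add ((hq.1.mul hp.2).1.mono (by omega))

theorem Bd.one (d : ℤ) : Bd E d 1 0 := by
  refine ⟨?_, by simp [Le.zero]⟩
  rw [map_one]; exact le_of_natDegree (n := 0) (by simp)

theorem Bd.pow {d n : ℤ} {p : Z3} (hp : Bd E d p n) (k : ℕ) : Bd E d (p ^ k) (k * n) := by
  induction k with
  | zero => simpa using Bd.one d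
  | succ k ih =>
    rw [pow_succ]
    exact (ih.mul hp).mono (by push_cast; linarith)

theorem Bd.const (d : ℤ) (c : ℂ) : Bd E d (MvPolynomial.C c) 0 := by
  refine ⟨?_, ?_⟩
  · rw [← MvPolynomial.algebraMap_eq, AlgHom.commutes]
    exact le_of_natDegree (n := 0) (by simp [IsScalarTower.algebraMap_apply ℂ ℂ[X] CU])
  · rw [← MvPolynomial.algebraMap_eq, E.map_algebraMap, map_zero]; exact Le.zero _

theorem Bd.sum {ι : Type*} {d n : ℤ} (s : Finset ι) (p : ι → Z3)
    (h : ∀ i ∈ s, Bd E d (p i) n) : Bd E d (∑ i ∈ s, p i) n := by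
  classical
  induction s using Finset.induction with
  | empty => simpa using Bd.zero d n
  | insert a s ha ih =>
    rw [Finset.sum_insert ha]
    exact (h a (by simp)).add (ih fun i hi => h i (by simp [hi]))

theorem bd_incl2 {d : ℤ} (hA : Bd E d (MvPolynomial.X 0) 2) (hB : Bd E d (MvPolynomial.X 1) 2)
    (q : Z2) : Bd E d (incl2 q) (2 * q.totalDegree) := by
  classical
  conv => arg 3; rw [q.as_sum, map_sum]
  refine Bd.sum _ _ fun e he => ?_
  have hdeg := MvPolynomial.le_totalDegree he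
  rw [Finsupp.sum_fintype _ _ (fun _ => rfl), Fin.sum_univ_two] at hdeg
  have : incl2 (MvPolynomial.monomial e (q.coeff e)) = MvPolynomial.C (q.coeff e) *
      (MvPolynomial.X 0 ^ e 0 * MvPolynomial.X 1 ^ e 1) := by
    rw [MvPolynomial.monomial_eq, Finsupp.prod_fintype _ _ (by simp)]
    simp [incl2, Fin.prod_univ_two]
  rw [this]
  exact ((Bd.const d _).mul ((hA.pow (e 0)).mul (hB.pow (e 1)))).mono (by omega)

end graded

/-- Hypotheses on the derivation together with its weight `d`. -/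
structure Graded (E : Derivation ℂ Z3 Z3) (d : ℤ) : Prop where
  nil : LocNil E
  pres : PhiP ∣ E PhiP
  hA : Le (phiHom (E (MvPolynomial.X 0))) (2 + d)
  hB : Le (phiHom (E (MvPolynomial.X 1))) (2 + d)
  hK : Le (phiHom (E (MvPolynomial.X 2))) (3 + d)

namespace Graded

variable {E : Derivation ℂ Z3 Z3} {d : ℤ}

theorem map_congr_zero (hE : PhiP ∣ E PhiP) {p : Z3} (hp : phiHom p = 0) :
    phiHom (E p) = 0 := by
  obtain ⟨c, rfl⟩ := (phiHom_eq_zero_iff p).1 hp
  rw [E.leibniz, map_add, smul_eq_mul, smul_eq_mul, map_mul, map_mul, phiHom_PhiP,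
    (phiHom_eq_zero_iff (E PhiP)).2 hE]
  ring

theorem bound (G : Graded E d) {p : Z3} {n : ℤ} (hp : Le (phiHom p) n) :
    Le (phiHom (E p)) (n + d) := by
  obtain ⟨q0, q1, -, hdiv, h0, h1⟩ := exists_rep p hp
  have hz : phiHom (E (p - (incl2 q0 + MvPolynomial.X 2 * incl2 q1))) = 0 :=
    map_congr_zero G.pres ((phiHom_eq_zero_iff _).2 hdiv)
  rw [map_sub, map_sub, sub_eq_zero] at hz
  rw [hz]
  have hA : Bd E d (MvPolynomial.X 0) 2 := ⟨by simpa using le_phiA.1, G.hA⟩
  have hB : Bd E d (MvPolynomial.X 1) 2 := ⟨by simpa using le_phiB.1, G.hB⟩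
  have hK : Bd E d (MvPolynomial.X 2) 3 := ⟨by simpa using le_phiK.1, G.hK⟩
  refine (Bd.add (E := E) (d := d) (n := n) ?_ ?_).2
  · rcases h0 with rfl | h
    · simpa using Bd.zero d n
    · exact (bd_incl2 hA hB q0).mono h
  · rcases h1 with rfl | h
    · simpa using Bd.zero d n
    · exact (hK.mul (bd_incl2 hA hB q1)).mono (by omega)

theorem bound_iterate (G : Graded E d) {p : Z3} {n : ℤ} (hp : Le (phiHom p) n) (j : ℕ) :
    Le (phiHom ((⇑E)^[j] p)) (n + j * d) := by
  induction j with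
  | zero => simpa using hp
  | succ j ih =>
    rw [Function.iterate_succ_apply', show (n + ((j + 1 : ℕ) : ℤ) * d) = n + j * d + d by
      push_cast; ring]
    exact G.bound ih

end Graded

/-- The leading coefficient of the `j`-th iterate. -/
noncomputable def lc (E : Derivation ℂ Z3 Z3) (d : ℤ) (p : Z3) (n : ℤ) (j : ℕ) : ℂ[X] :=
  cf (phiHom ((⇑E)^[j] p)) (n + j * d)

/-- `e` is the last index at which the leading coefficient of an iterate is non-zero. -/
def Depth (E : Derivation ℂ Z3 Z3) (d : ℤ) (p : Z3) (n : ℤ) (e : ℕ) : Prop :=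
  lc E d p n e ≠ 0 ∧ ∀ j, e < j → lc E d p n j = 0

theorem Depth.unique {E : Derivation ℂ Z3 Z3} {d : ℤ} {p : Z3} {n : ℤ} {e f : ℕ}
    (he : Depth E d p n e) (hf : Depth E d p n f) : e = f := by
  rcases lt_trichotomy e f with h | h | h
  · exact absurd (he.2 f h) hf.1
  · exact h
  · exact absurd (hf.2 e h) he.1

theorem lc_zero (E : Derivation ℂ Z3 Z3) (d : ℤ) (p : Z3) (n : ℤ) :
    lc E d p n 0 = cf (phiHom p) n := by simp [lc]

theorem lc_succ (E : Derivation ℂ Z3 Z3) (d : ℤ) (p : Z3) (n : ℤ) (j : ℕ) :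
    lc E d p n (j + 1) = lc E d (E p) (n + d) j := by
  rw [lc, lc, Function.iterate_succ_apply]
  congr 1
  push_cast; ring

theorem lc_add (E : Derivation ℂ Z3 Z3) (d : ℤ) (p q : Z3) (n : ℤ) (j : ℕ) :
    lc E d (p + q) n j = lc E d p n j + lc E d q n j := by
  rw [lc, iterate_add', map_add, cf_add]; rfl

theorem lc_eq_of_top_eq {E : Derivation ℂ Z3 Z3} {d : ℤ} (G : Graded E d) {p q : Z3} {n : ℤ}
    (hp : Le (phiHom p) n) (hq : Le (phiHom q) n)
    (h : cf (phiHom p) n = cf (phiHom q) n) (j : ℕ) : lc E d p n j = lc E d q n j := by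
  have h1 : Le (phiHom (p - q)) (n - 1) := by
    intro m hm
    rw [map_sub, cf_sub]
    rcases eq_or_lt_of_le (show n ≤ m by omega) with rfl | hlt
    · rw [h, sub_self]
    · rw [hp m hlt, hq m hlt, sub_self]
  have h2 : lc E d (p - q) n j = 0 := (G.bound_iterate h1 j) _ (by omega)
  have h3 : lc E d p n j = lc E d q n j + lc E d (p - q) n j := by
    rw [← lc_add]; congr 1; ring
  rw [h3, h2, add_zero]

theorem exists_depth_top {E : Derivation ℂ Z3 Z3} {d : ℤ} (G : Graded E d) {p : Z3} {n : ℤ}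
    (h : cf (phiHom p) n ≠ 0) : ∃ e, Depth E d p n e := by
  classical
  obtain ⟨N, hN⟩ := G.nil p
  have hz : ∀ j, N ≤ j → lc E d p n j = 0 := fun j hj => by
    rw [lc, iterate_eq_zero_of_le E hN hj, map_zero, cf_zero]
  refine ⟨Nat.findGreatest (fun j => lc E d p n j ≠ 0) N,
    Nat.findGreatest_spec (P := fun j => lc E d p n j ≠ 0) (Nat.zero_le N)
      (by rw [lc_zero]; exact h), ?_⟩
  intro j hj
  rcases le_or_gt j N with hjN | hjN
  · by_contra hne
    exact Nat.findGreatest_is_greatest hj hjN hne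
  · exact hz j hjN.le

theorem cf_natCast_mul (c : ℕ) (r : CU) (n : ℤ) :
    cf ((c : CU) * r) n = (c : ℂ[X]) * cf r n := by
  unfold cf; split <;> simp

theorem Depth.mul {E : Derivation ℂ Z3 Z3} {d : ℤ} (G : Graded E d) {p q : Z3} {n m : ℤ}
    {e f : ℕ} (hp : Le (phiHom p) n) (hq : Le (phiHom q) m)
    (he : Depth E d p n e) (hf : Depth E d q m f) : Depth E d (p * q) (n + m) (e + f) := by
  have formula : ∀ N, lc E d (p * q) (n + m) N = ∑ i ∈ Finset.range (N + 1),
      (N.choose i : ℂ[X]) * (lc E d p n i * lc E d q m (N - i)) := by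
    intro N
    rw [lc, leibniz_iterate, map_sum, cf_sum]
    refine Finset.sum_congr rfl fun i hi => ?_
    have hi' : i ≤ N := by simpa [Nat.lt_succ_iff] using hi
    rw [map_mul, map_mul, map_natCast, cf_natCast_mul]
    congr 1
    have h := (G.bound_iterate hp i).mul (G.bound_iterate hq (N - i))
    rw [show n + m + (N : ℤ) * d = n + i * d + (m + ((N - i : ℕ) : ℤ) * d) by
      rw [Nat.cast_sub hi']; ring, h.2]
    rfl
  refine ⟨?_, fun N hN => ?_⟩
  · rw [formula, Finset.sum_eq_single e]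
    · rw [Nat.add_sub_cancel_left]
      exact mul_ne_zero (Nat.cast_ne_zero.2 (Nat.choose_pos (by omega)).ne') (mul_ne_zero he.1 hf.1)
    · intro i _ hne
      rcases lt_or_gt_of_ne hne with h | h
      · rw [hf.2 (e + f - i) (by omega)]; ring
      · rw [he.2 i h]; ring
    · intro h; simp at h
  · rw [formula]
    refine Finset.sum_eq_zero fun i _ => ?_
    by_cases h : e < i
    · rw [he.2 i h]; ring
    · rw [hf.2 (N - i) (by omega)]; ring

theorem Depth.of_top_eq {E : Derivation ℂ Z3 Z3} {d : ℤ} (G : Graded E d) {p q : Z3} {n : ℤ}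
    {e : ℕ} (hp : Le (phiHom p) n) (hq : Le (phiHom q) n)
    (h : cf (phiHom p) n = cf (phiHom q) n) (he : Depth E d p n e) : Depth E d q n e :=
  ⟨by rw [← lc_eq_of_top_eq G hp hq h]; exact he.1,
   fun j hj => by rw [← lc_eq_of_top_eq G hp hq h]; exact he.2 j hj⟩

theorem depth_pred {E : Derivation ℂ Z3 Z3} {d : ℤ} (G : Graded E d) {p : Z3} {n : ℤ} {e : ℕ}
    (hp : Le (phiHom p) n) (he : Depth E d p n e) :
    (cf (phiHom (E p)) (n + d) = 0 ∧ e = 0) ∨
      (cf (phiHom (E p)) (n + d) ≠ 0 ∧ 1 ≤ e ∧ Depth E d (E p) (n + d) (e - 1)) := by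
  by_cases h : cf (phiHom (E p)) (n + d) = 0
  · left
    refine ⟨h, ?_⟩
    by_contra hne
    obtain ⟨e', rfl⟩ := Nat.exists_eq_succ_of_ne_zero hne
    apply he.1
    rw [lc_succ, lc_eq_of_top_eq G (G.bound hp) (q := 0) (by simp [Le.zero]) (by simpa using h),
      lc, iterate_zero', map_zero, cf_zero]
  · right
    obtain ⟨f, hf⟩ := exists_depth_top G h
    have : Depth E d p n (f + 1) := by
      refine ⟨by rw [lc_succ]; exact hf.1, fun j hj => ?_⟩
      obtain ⟨j', rfl⟩ := Nat.exists_eq_succ_of_ne_zero (show j ≠ 0 by omega)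
      rw [lc_succ]; exact hf.2 j' (by omega)
    have := he.unique this
    subst this
    exact ⟨h, by omega, by simpa using hf⟩

noncomputable def lineA : Z3 := MvPolynomial.X 0
noncomputable def lineM : Z3 := MvPolynomial.X 1 - MvPolynomial.X 0
noncomputable def lineP : Z3 := MvPolynomial.X 1 + MvPolynomial.X 0

theorem le_lineA : Le (phiHom lineA) 2 ∧ cf (phiHom lineA) 2 = TT := by
  simpa [lineA] using le_phiA

theorem le_lineM : Le (phiHom lineM) 2 ∧ cf (phiHom lineM) 2 = TT * (X - 1) := by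
  simp only [lineM, map_sub, phiHom_X0, phiHom_X1]
  exact ⟨le_phiB.1.sub le_phiA.1, by rw [cf_sub, le_phiB.2, le_phiA.2]; ring⟩

theorem le_lineP : Le (phiHom lineP) 2 ∧ cf (phiHom lineP) 2 = TT * (X + 1) := by
  simp only [lineP, map_add, phiHom_X0, phiHom_X1]
  exact ⟨le_phiB.1.add le_phiA.1, by rw [cf_add, le_phiB.2, le_phiA.2]; ring⟩

theorem lin_ne_zero (c : ℂ) : TT * (X + C c) ≠ 0 :=
  mul_ne_zero TT_ne_zero (X_add_C_ne_zero c)

theorem natDegree_TT_mul (c : ℂ) : ((X : ℂ[X]) + C c).natDegree = 1 := natDegree_X_add_C c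

namespace Graded

variable {E : Derivation ℂ Z3 Z3} {d : ℤ}

/-- The relation between the leading parts coming from the equation of the surface. -/
theorem top_relation (G : Graded E d) :
    TT * cf (phiHom (E (MvPolynomial.X 2))) (3 + d) * TT =
      (X ^ 2 - 3) * TT ^ 2 * cf (phiHom (E (MvPolynomial.X 0))) (2 + d) +
        2 * X * TT ^ 2 * cf (phiHom (E (MvPolynomial.X 1))) (2 + d) := by
  set a : Z3 := MvPolynomial.X 0
  set b : Z3 := MvPolynomial.X 1
  set k : Z3 := MvPolynomial.X 2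
  have h0 : phiHom (E PhiP) = 0 := (phiHom_eq_zero_iff _).2 G.pres
  have hder : E PhiP = 2 * k * E k - ((4 * b ^ 2 - 12 * a ^ 2 + 42 * a - 4 * b - 20) * E a
      + (8 * a * b - 4 * a) * E b) := by
    have hn : ∀ (m : ℕ) (r : Z3), E ((m : Z3) * r) = (m : Z3) * E r := fun m r => by
      rw [E.leibniz, E.map_natCast]; simp
    simp only [PhiP, Phi, fF]
    have e4 : ∀ r : Z3, E (4 * r) = 4 * E r := fun r => by exact_mod_cast hn 4 r
    have e20 : ∀ r : Z3, E (20 * r) = 20 * E r := fun r => by exact_mod_cast hn 20 r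
    have e21 : ∀ r : Z3, E (21 * r) = 21 * E r := fun r => by exact_mod_cast hn 21 r
    have c4 : E (4 : Z3) = 0 := by exact_mod_cast E.map_natCast 4
    simp only [mul_assoc, map_sub, map_add, e4, e20, e21, c4, E.leibniz, E.leibniz_pow,
      smul_eq_mul, nsmul_eq_mul]
    push_cast
    ring
  rw [hder] at h0
  simp only [map_sub, map_add, map_mul, map_pow, map_ofNat, a, b, k, phiHom_X0, phiHom_X1,
    phiHom_X2] at h0
  have key : (phiK u0 t0 * phiHom (E k) + phiK u0 t0 * phiHom (E k)) =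
      (4 : ℂ) • (phiB u0 t0 * phiB u0 t0 * phiHom (E a))
      - (12 : ℂ) • (phiA u0 t0 * phiA u0 t0 * phiHom (E a))
      + (8 : ℂ) • (phiA u0 t0 * phiB u0 t0 * phiHom (E b))
      + ((42 : ℂ) • (phiA u0 t0 * phiHom (E a)) - (4 : ℂ) • (phiB u0 t0 * phiHom (E a))
        - (20 : ℂ) • phiHom (E a) - (4 : ℂ) • (phiA u0 t0 * phiHom (E b))) := by
    simp only [ofNat_smul_eq_nsmul, nsmul_eq_mul, Nat.cast_ofNat, a, b, k]
    linear_combination h0
  have hk := le_phiK.1.mul G.hK
  have hbb := (le_phiB.1.mul le_phiB.1).1.mul G.hA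
  have haa := (le_phiA.1.mul le_phiA.1).1.mul G.hA
  have hab := (le_phiA.1.mul le_phiB.1).1.mul G.hB
  have hlow1 := (le_phiA.1.mul G.hA).1
  have hlow2 := (le_phiB.1.mul G.hA).1
  have hlow3 := (le_phiA.1.mul G.hB).1
  have e := congrArg (fun r => cf r (6 + d)) key
  simp only [cf_add, cf_sub, cf_smul] at e
  rw [show (6 : ℤ) + d = 3 + (3 + d) by ring, hk.2,
    show (3 : ℤ) + (3 + d) = 2 + 2 + (2 + d) by ring, hbb.2, haa.2, hab.2,
    (le_phiA.1.mul le_phiA.1).2, (le_phiB.1.mul le_phiB.1).2, (le_phiA.1.mul le_phiB.1).2,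
    hlow1 (2 + 2 + (2 + d)) (by omega), hlow2 (2 + 2 + (2 + d)) (by omega),
    hlow3 (2 + 2 + (2 + d)) (by omega), G.hA (2 + 2 + (2 + d)) (by omega),
    le_phiA.2, le_phiB.2, le_phiK.2] at e
  simp only [smul_zero, sub_zero, add_zero, ofNat_smul_eq_nsmul, nsmul_eq_mul,
    Nat.cast_ofNat] at e
  have e' : (4 : ℂ[X]) * (TT * cf (phiHom (E k)) (3 + d) * TT) = 4 *
      ((X ^ 2 - 3) * TT ^ 2 * cf (phiHom (E a)) (2 + d) +
        2 * X * TT ^ 2 * cf (phiHom (E b)) (2 + d)) := by
    linear_combination e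
  exact mul_left_cancel₀ (by norm_num) e'

theorem no_self_dvd (G : Graded E d) {L q : Z3} {m : ℤ} (hL : Le (phiHom L) 2)
    (hL0 : cf (phiHom L) 2 ≠ 0) (hq : Le (phiHom q) m) (hm : 2 + d = 2 + m)
    (h : cf (phiHom (E L)) (2 + d) = cf (phiHom L) 2 * cf (phiHom q) m) :
    cf (phiHom (E L)) (2 + d) = 0 := by
  by_contra hne
  obtain ⟨e, he⟩ := exists_depth_top G hL0
  rcases depth_pred G hL he with ⟨h', -⟩ | ⟨-, h1, he'⟩
  · exact hne h'
  · have hq0 : cf (phiHom q) m ≠ 0 := fun hz => hne (by rw [h, hz, mul_zero])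
    obtain ⟨f, hf⟩ := exists_depth_top G hq0
    have hprod := Depth.mul G hL hq he hf
    have hle := hL.mul hq
    rw [← map_mul] at hle
    rw [← hm] at hprod hle
    have h2 := Depth.of_top_eq G hle.1 (G.bound hL) (by rw [hle.2, h]) hprod
    have := he'.unique h2
    omega

theorem depth_le_of_odd (G : Graded E d) (hd : d % 2 ≠ 0) {L : Z3} {e eK : ℕ}
    (hL : Le (phiHom L) 2) (he : Depth E d L 2 e)
    (hK : Depth E d (MvPolynomial.X 2) 3 eK) : e = 0 ∨ eK + 1 ≤ e := by
  rcases depth_pred G hL he with ⟨-, h⟩ | ⟨hne, h1, he'⟩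
  · exact Or.inl h
  · right
    obtain ⟨q, hq, hqeq⟩ := top_odd (E L) (n := 2 + d) (by omega) (G.bound hL)
    have hq0 : cf (phiHom q) (2 + d - 3) ≠ 0 := fun hz => hne (by rw [hqeq, hz, mul_zero])
    obtain ⟨f, hf⟩ := exists_depth_top G hq0
    have hK1 : Le (phiHom (MvPolynomial.X 2)) 3 := by simpa using le_phiK.1
    have hprod := Depth.mul G hK1 hq hK hf
    have hle := hK1.mul hq
    rw [← map_mul] at hle
    rw [add_sub_cancel] at hprod hle
    have h2 := Depth.of_top_eq G hle.1 (G.bound hL)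
      (by rw [hle.2, hqeq, phiHom_X2, le_phiK.2]) hprod
    have := he'.unique h2
    omega

theorem tops_zero (G : Graded E d) :
    cf (phiHom (E (MvPolynomial.X 0))) (2 + d) = 0 ∧
      cf (phiHom (E (MvPolynomial.X 1))) (2 + d) = 0 ∧
      cf (phiHom (E (MvPolynomial.X 2))) (3 + d) = 0 := by
  set ca := cf (phiHom (E (MvPolynomial.X 0))) (2 + d) with hca
  set cb := cf (phiHom (E (MvPolynomial.X 1))) (2 + d) with hcb
  have hM : cf (phiHom (E lineM)) (2 + d) = cb - ca := by
    rw [lineM, map_sub, map_sub, cf_sub]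
  have hP : cf (phiHom (E lineP)) (2 + d) = cb + ca := by
    rw [lineP, map_add, map_add, cf_add]
  suffices hab : ca = 0 ∧ cb = 0 by
    refine ⟨hab.1, hab.2, ?_⟩
    have := G.top_relation
    rw [← hca, ← hcb, hab.1, hab.2, mul_zero, mul_zero, add_zero] at this
    simpa [TT_ne_zero] using this
  by_cases hd : d % 2 = 0
  · rcases lt_or_ge (2 + d) 0 with hneg | hpos
    · exact ⟨cf_neg _ hneg, cf_neg _ hneg⟩
    obtain ⟨m, hm⟩ : ∃ m : ℕ, 2 + d = 2 * (m : ℤ) := ⟨((2 + d) / 2).toNat, by omega⟩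
    obtain ⟨qa, hqa, ha⟩ := top_even (E (MvPolynomial.X 0)) m (hm ▸ G.hA)
    obtain ⟨qb, hqb, hb⟩ := top_even (E (MvPolynomial.X 1)) m (hm ▸ G.hB)
    rw [← hm, ← hca] at ha
    rw [← hm, ← hcb] at hb
    obtain ⟨qk, hqk, hk⟩ := top_odd (E (MvPolynomial.X 2)) (n := 3 + d) (by omega) G.hK
    have hR : ∃ Q : ℂ[X], cf (phiHom qk) (3 + d - 3) * TT = TT ^ m * Q := by
      rcases Nat.eq_zero_or_pos m with hm0 | hm0
      · exact ⟨0, by rw [cf_neg _ (by omega), zero_mul, mul_zero]⟩
      · have hd' : 3 + d - 3 = 2 * ((m - 1 : ℕ) : ℤ) := by omega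
        rw [hd'] at hqk ⊢
        obtain ⟨q, -, hq⟩ := top_even qk (m - 1) hqk
        refine ⟨dehom (m - 1) q, ?_⟩
        rw [hq]
        calc TT ^ (m - 1) * dehom (m - 1) q * TT
            = TT ^ (m - 1 + 1) * dehom (m - 1) q := by ring
          _ = TT ^ m * dehom (m - 1) q := by rw [Nat.sub_add_cancel hm0]
    obtain ⟨Q, hQ⟩ := hR
    have hrel := G.top_relation
    rw [← hca, ← hcb, hk, ha, hb] at hrel
    set Pa := dehom m qa
    set Pb := dehom m qb
    have hrel2 : 2 * Q * TT = (X ^ 2 - 3) * Pa + 2 * X * Pb := by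
      have : TT ^ (m + 2) * (2 * Q * TT) = TT ^ (m + 2) * ((X ^ 2 - 3) * Pa + 2 * X * Pb) := by
        linear_combination hrel - 2 * TT ^ 3 * hQ
      exact mul_left_cancel₀ (pow_ne_zero _ TT_ne_zero) this
    have h1 : Pb.eval 1 - Pa.eval 1 = 0 := by
      have := congrArg (Polynomial.eval (1 : ℂ)) hrel2
      simp [TT] at this; linear_combination (-(1 : ℂ) / 2) * this
    have h2 : Pb.eval (-1) + Pa.eval (-1) = 0 := by
      have := congrArg (Polynomial.eval (-1 : ℂ)) hrel2
      simp [TT] at this; linear_combination (1 / 2 : ℂ) * this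
    have key : ∀ (c : ℂ) (L : Z3), Le (phiHom L) 2 → cf (phiHom L) 2 = TT * (X + C c) →
        ∀ P : ℂ[X], P.natDegree ≤ m → P.eval (-c) = 0 →
        cf (phiHom (E L)) (2 + d) = TT ^ m * P → P = 0 := by
      intro c L hL hLt P hPd hPe hEL
      by_contra hP0
      have hdvd : X + C c ∣ P := by
        have : X - C (-c) ∣ P := dvd_iff_isRoot.2 hPe
        simpa using this
      obtain ⟨P', rfl⟩ := hdvd
      have hP'0 : P' ≠ 0 := right_ne_zero_of_mul hP0
      rw [natDegree_mul (X_add_C_ne_zero c) hP'0, natDegree_X_add_C] at hPd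
      obtain ⟨q, hq, hqP⟩ := exists_dehom (m := m - 1) P' (by omega)
      have hle := le_psi2 q hq
      rw [hqP] at hle
      have hz := G.no_self_dvd (q := incl2 q) hL (hLt ▸ lin_ne_zero c) hle.1 (by omega)
        (by
          rw [hEL, hLt]
          change _ = _ * cf (psi2 q) _
          rw [hle.2, ← Nat.sub_add_cancel (show 1 ≤ m by omega), pow_succ]
          simp only [Nat.add_sub_cancel]
          ring)
      rw [hEL] at hz
      exact mul_ne_zero (pow_ne_zero _ TT_ne_zero) hP0 hz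
    have d1 := key (-1) lineM le_lineM.1 (by rw [le_lineM.2]; simp [sub_eq_add_neg]) (Pb - Pa)
      ((natDegree_sub_le _ _).trans (max_le (natDegree_dehom_le _ _) (natDegree_dehom_le _ _)))
      (by simpa using h1) (by rw [hM, ha, hb]; ring)
    have d2 := key 1 lineP le_lineP.1 (by rw [le_lineP.2]; simp) (Pb + Pa)
      ((natDegree_add_le _ _).trans (max_le (natDegree_dehom_le _ _) (natDegree_dehom_le _ _)))
      (by simpa using h2) (by rw [hP, ha, hb]; ring)
    have hPa : Pa = 0 := by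
      have h : (2 : ℂ[X]) * Pa = 0 := by linear_combination d2 - d1
      exact (mul_eq_zero.1 h).resolve_left two_ne_zero
    have hPb : Pb = 0 := by linear_combination d2 - hPa
    exact ⟨by rw [ha, hPa, mul_zero], by rw [hb, hPb, mul_zero]⟩
  · obtain ⟨eA, heA⟩ := exists_depth_top G (p := lineA) (n := 2)
      (by rw [le_lineA.2]; exact TT_ne_zero)
    obtain ⟨eM, heM⟩ := exists_depth_top G (p := lineM) (n := 2)
      (by rw [le_lineM.2]; simpa [sub_eq_add_neg] using lin_ne_zero (-1))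
    obtain ⟨eP, heP⟩ := exists_depth_top G (p := lineP) (n := 2)
      (by rw [le_lineP.2]; simpa using lin_ne_zero 1)
    have hK1 : Le (phiHom (MvPolynomial.X 2)) 3 := by simpa using le_phiK.1
    obtain ⟨eK, heK⟩ := exists_depth_top G (p := MvPolynomial.X 2) (n := 3)
      (by rw [phiHom_X2, le_phiK.2]; exact mul_ne_zero two_ne_zero (pow_ne_zero _ TT_ne_zero))
    have hKK := Depth.mul G hK1 hK1 heK heK
    have hleK := hK1.mul hK1
    rw [← map_mul] at hleK
    have hAM := Depth.mul G le_lineA.1 le_lineM.1 heA heM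
    have hleAM := le_lineA.1.mul le_lineM.1
    rw [← map_mul] at hleAM
    have hAMP := Depth.mul G hleAM.1 le_lineP.1 hAM heP
    have hleAMP := hleAM.1.mul le_lineP.1
    rw [← map_mul] at hleAMP
    have hfour : Le (phiHom (4 : Z3)) 0 ∧ cf (phiHom (4 : Z3)) 0 = 4 := by
      rw [map_ofNat]
      exact ⟨le_of_natDegree (n := 0) (by simp), by simp [cf, coeff_ofNat_zero]⟩
    have he4 : Depth E d 4 0 0 := by
      refine ⟨by rw [lc_zero, hfour.2]; norm_num, fun j hj => ?_⟩
      obtain ⟨j', rfl⟩ := Nat.exists_eq_succ_of_ne_zero hj.ne'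
      have h4 : E (4 : Z3) = 0 := by exact_mod_cast E.map_natCast 4
      rw [lc_succ, h4, lc, iterate_zero', map_zero, cf_zero]
    have hf := Depth.mul G hfour.1 hleAMP.1 he4 hAMP
    have hlef := hfour.1.mul hleAMP.1
    rw [← map_mul] at hlef
    have heq : (0 : ℤ) + (2 + 2 + 2) = 3 + 3 := by norm_num
    rw [heq] at hf hlef
    have htop : cf (phiHom (4 * (lineA * lineM * lineP))) (3 + 3) =
        cf (phiHom (MvPolynomial.X 2 * MvPolynomial.X 2)) (3 + 3) := by
      rw [hlef.2, hleK.2, hfour.2, hleAMP.2, hleAM.2, le_lineA.2, le_lineM.2, le_lineP.2,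
        phiHom_X2, le_phiK.2, TT]
      ring
    have hsum := hKK.unique (Depth.of_top_eq G hlef.1 hleK.1 htop hf)
    have rA := G.depth_le_of_odd hd le_lineA.1 heA heK
    have rM := G.depth_le_of_odd hd le_lineM.1 heM heK
    have rP := G.depth_le_of_odd hd le_lineP.1 heP heK
    have zA : eA = 0 → ca = 0 := fun h => by
      rcases depth_pred G le_lineA.1 heA with ⟨h', -⟩ | ⟨-, h', -⟩
      · rw [hca]; exact h'
      · omega
    have zM : eM = 0 → cb - ca = 0 := fun h => by
      rcases depth_pred G le_lineM.1 heM with ⟨h', -⟩ | ⟨-, h', -⟩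
      · rw [← hM]; exact h'
      · omega
    have zP : eP = 0 → cb + ca = 0 := fun h => by
      rcases depth_pred G le_lineP.1 heP with ⟨h', -⟩ | ⟨-, h', -⟩
      · rw [← hP]; exact h'
      · omega
    rcases (show (eA = 0 ∧ eM = 0) ∨ (eA = 0 ∧ eP = 0) ∨ (eM = 0 ∧ eP = 0) by omega) with
      ⟨a, b⟩ | ⟨a, b⟩ | ⟨a, b⟩
    · exact ⟨zA a, by linear_combination zM b + zA a⟩
    · exact ⟨zA a, by linear_combination zP b - zA a⟩
    · have h : (2 : ℂ[X]) * ca = 0 := by linear_combination zP b - zM a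
      have h' := (mul_eq_zero.1 h).resolve_left two_ne_zero
      exact ⟨h', by linear_combination zP b - h'⟩

end Graded

/-- Rigidity of the cubic surface. -/
theorem rigid (E : Derivation ℂ Z3 Z3) (hnil : LocNil E) (hpres : PhiP ∣ E PhiP) (i : Fin 3) :
    PhiP ∣ E (MvPolynomial.X i) := by
  classical
  rw [← phiHom_eq_zero_iff]
  by_contra hi
  let w : Fin 3 → ℤ := ![2, 2, 3]
  let r : Fin 3 → CU := fun j => phiHom (E (MvPolynomial.X j))
  let S : Finset ℤ :=
    (Finset.univ.filter fun j => r j ≠ 0).image fun j => ((r j).natDegree : ℤ) - w j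
  have hS : S.Nonempty := ⟨_, Finset.mem_image_of_mem _ (by simp [r, hi] : i ∈ _)⟩
  set d := S.max' hS
  have hle : ∀ j, Le (r j) (w j + d) := by
    intro j
    by_cases hj : r j = 0
    · rw [hj]; exact Le.zero _
    · have : ((r j).natDegree : ℤ) - w j ≤ d :=
        S.le_max' _ (Finset.mem_image_of_mem _ (by simp [hj]))
      exact (le_natDegree (r j)).mono (by omega)
  have G : Graded E d :=
    ⟨hnil, hpres, by simpa [w, r] using hle 0, by simpa [w, r] using hle 1,
      by simpa [w, r] using hle 2⟩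
  obtain ⟨j, hj, hjd⟩ := Finset.mem_image.1 (S.max'_mem hS)
  have hjd' : ((r j).natDegree : ℤ) = w j + d := by
    have : ((r j).natDegree : ℤ) - w j = d := hjd
    omega
  apply cf_natDegree (show r j ≠ 0 by simpa using hj)
  rw [hjd']
  obtain ⟨h0, h1, h2⟩ := G.tops_zero
  fin_cases j
  · simpa [w, r] using h0
  · simpa [w, r] using h1
  · simpa [w, r] using h2

end Vale.Agent.P295
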